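import Vale.Agent.P054.H978b.Ball
import Vale.Agent.P054.H978b.Cover

/-! Slabs around affine subspaces: volume inside a ball, the smoothed counting measure, and counting
by covering (helper978). -/

namespace Vale.Agent.P054.H978o

open MeasureTheory Metric Set Module
open scoped ENNReal NNReal Topology RealInnerProductSpace
open Vale.Agent.P118 Vale.Agent.P118.FD
open Vale.Agent.P054.H978b (ub pm cnt ub_apply vol_scale vol_pos vol_fin ub_le_one pm_apply)

variable {d : ℕ}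

/-- closed `t`-neighbourhood -/
def Nbh (t : ℝ) (W : Set (Ed d)) : Set (Ed d) := {z | ∃ w ∈ W, ‖z - w‖ ≤ t}

open Classical in
/-- the number of points of `P` at distance at most `w` from `W` -/
noncomputable def nr (P : Finset (Ed d)) (W : AffineSubspace ℝ (Ed d)) (w : ℝ) : ℕ :=
  (P.filter fun p => ∃ y ∈ W, dist p y ≤ w).card

theorem nr_mono (P : Finset (Ed d)) (W : AffineSubspace ℝ (Ed d)) {w w' : ℝ} (h : w ≤ w') :
    nr P W w ≤ nr P W w' := by
  classical
  unfold nr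
  refine Finset.card_le_card (Finset.monotone_filter_right _ fun p _ hp => ?_)
  obtain ⟨y, hy, hd⟩ := hp
  exact ⟨y, hy, hd.trans h⟩

theorem nr_le_of_sub {P Q : Finset (Ed d)} (h : P ⊆ Q) (W : AffineSubspace ℝ (Ed d)) (w : ℝ) :
    nr P W w ≤ nr Q W w := by
  classical
  unfold nr
  exact Finset.card_le_card (Finset.filter_subset_filter _ h)

theorem nr_le_card (P : Finset (Ed d)) (W : AffineSubspace ℝ (Ed d)) (w : ℝ) :
    nr P W w ≤ P.card := by
  classical
  unfold nr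
  exact Finset.card_filter_le _ _

/-- volume of a slab in a ball -/
theorem ub_slab {p : Ed d} {δ ρ : ℝ} (hδ : 0 < δ) (hρ : 0 < ρ) (W : AffineSubspace ℝ (Ed d))
    (hW : W.direction ≠ ⊤) :
    ub p δ (Nbh ρ (W : Set (Ed d))) ≤ ENNReal.ofReal (3 * 2 ^ d * (ρ / δ)) := by
  rcases (W : Set (Ed d)).eq_empty_or_nonempty with h0 | ⟨w₀, hw₀⟩
  · have : Nbh ρ (W : Set (Ed d)) = ∅ := by
      rw [h0]
      ext z
      simp [Nbh]
    rw [this, measure_empty]
    exact bot_le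
  have horth : W.directionᗮ ≠ ⊥ := fun h => hW (Submodule.orthogonal_eq_bot_iff.1 h)
  obtain ⟨u, hu, hu0⟩ := Submodule.exists_mem_ne_zero_of_ne_bot horth
  obtain ⟨e, he1, heW⟩ : ∃ e : Ed d, ‖e‖ = 1 ∧ ∀ v ∈ W.direction, ⟪e, v⟫ = 0 := by
    refine ⟨‖u‖⁻¹ • u, norm_smul_inv_norm hu0, fun v hv => ?_⟩
    rw [inner_smul_left, real_inner_comm, (Submodule.mem_orthogonal _ _).1 hu v hv, mul_zero]
  set S : Set (Ed d) := {z | |⟪e, z - w₀⟫| ≤ ρ} with hS
  have hSc : IsClosed S := isClosed_le (by fun_prop) continuous_const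
  have hNS : Nbh ρ (W : Set (Ed d)) ⊆ S := by
    rintro z ⟨w, hw, hzw⟩
    have h1 : w -ᵥ w₀ ∈ W.direction := AffineSubspace.vsub_mem_direction hw hw₀
    have h2 : ⟪e, z - w₀⟫ = ⟪e, z - w⟫ := by
      have h3 : z - w₀ = (z - w) + (w -ᵥ w₀) := by
        rw [vsub_eq_sub]; abel
      rw [h3, inner_add_right, heW _ h1, add_zero]
    show |⟪e, z - w₀⟫| ≤ ρ
    rw [h2]
    calc |⟪e, z - w⟫| ≤ ‖e‖ * ‖z - w‖ := abs_real_inner_le_norm _ _
      _ ≤ ρ := by rw [he1, one_mul]; exact hzw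
  set T₀ : Set (Ed d) := S ∩ closedBall p δ with hT₀
  have hT₀m : MeasurableSet T₀ := (hSc.inter isClosed_closedBall).measurableSet
  set J : ℕ := ⌊δ / (3 * ρ)⌋₊ + 1 with hJ
  have hJ0 : δ / (3 * ρ) ≤ J := by
    rw [hJ]; push_cast; exact (Nat.lt_floor_add_one _).le
  have hJpos : (0:ℝ) < J := by rw [hJ]; positivity
  set T : ℕ → Set (Ed d) := fun j => (fun z => z + (-(3 * ρ * j)) • e) ⁻¹' T₀ with hT
  have hTvol : ∀ j, volume (T j) = volume T₀ := fun j =>
    measure_preimage_add_right volume ((-(3 * ρ * j)) • e) T₀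
  have hTm : ∀ j, MeasurableSet (T j) := fun j =>
    (measurable_add_const _) hT₀m
  have hTsub : ∀ j ∈ Finset.range J, T j ⊆ closedBall p (2 * δ) := by
    intro j hj z hz
    have h1 : dist (z + (-(3 * ρ * j)) • e) p ≤ δ := hz.2
    have h2 : (j:ℝ) ≤ δ / (3 * ρ) := by
      have h3 : j ≤ ⌊δ / (3 * ρ)⌋₊ := by
        have := Finset.mem_range.1 hj
        omega
      exact (Nat.le_floor_iff (by positivity)).1 h3
    have h3 : 3 * ρ * j ≤ δ := by
      rw [le_div_iff₀ (by positivity)] at h2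
      linarith
    have h4 : dist z (z + (-(3 * ρ * j)) • e) ≤ δ := by
      rw [dist_eq_norm]
      have : z - (z + (-(3 * ρ * j)) • e) = (3 * ρ * j) • e := by
        rw [neg_smul]; abel
      rw [this, norm_smul, he1, mul_one, Real.norm_eq_abs, abs_of_nonneg (by positivity)]
      exact h3
    rw [mem_closedBall]
    linarith [dist_triangle z (z + (-(3 * ρ * j)) • e) p]
  have hTdisj : (Finset.range J : Set ℕ).PairwiseDisjoint T := by
    intro i _ j _ hij
    rw [Function.onFun, Set.disjoint_left]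
    intro z hi hj
    have h1 : |⟪e, (z + (-(3 * ρ * i)) • e) - w₀⟫| ≤ ρ := hi.1
    have h2 : |⟪e, (z + (-(3 * ρ * j)) • e) - w₀⟫| ≤ ρ := hj.1
    have h3 : ∀ a : ℝ, ⟪e, (z + (-a) • e) - w₀⟫ = ⟪e, z - w₀⟫ - a := by
      intro a
      have : (z + (-a) • e) - w₀ = (z - w₀) + (-a) • e := by abel
      rw [this, inner_add_right, inner_smul_right, real_inner_self_eq_norm_sq, he1]
      ring
    rw [h3, abs_le] at h1 h2
    apply hij
    by_contra hne
    rcases lt_or_gt_of_ne hne with h | h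
    · have h5 : (i:ℝ) + 1 ≤ j := by exact_mod_cast h
      have h6 : 3 * ρ * (i + 1) ≤ 3 * ρ * (j:ℝ) := mul_le_mul_of_nonneg_left h5 (by positivity)
      linarith [h1.1, h1.2, h2.1, h2.2]
    · have h5 : (j:ℝ) + 1 ≤ i := by exact_mod_cast h
      have h6 : 3 * ρ * (j + 1) ≤ 3 * ρ * (i:ℝ) := mul_le_mul_of_nonneg_left h5 (by positivity)
      linarith [h1.1, h1.2, h2.1, h2.2]
  have hsum : (J : ℝ≥0∞) * volume T₀ ≤ ENNReal.ofReal (2 ^ d) * volume (closedBall p δ) := by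
    calc (J : ℝ≥0∞) * volume T₀ = ∑ j ∈ Finset.range J, volume (T j) := by
          rw [Finset.sum_congr rfl fun j _ => hTvol j, Finset.sum_const, Finset.card_range,
            nsmul_eq_mul]
      _ = volume (⋃ j ∈ Finset.range J, T j) :=
          (measure_biUnion_finset hTdisj fun j _ => hTm j).symm
      _ ≤ volume (closedBall p (2 * δ)) := measure_mono (iUnion₂_subset hTsub)
      _ = _ := by
          rw [vol_scale p p (by positivity) hδ, mul_div_cancel_right₀ _ hδ.ne']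
  have hV0 := vol_pos p hδ
  have hVt := vol_fin p δ
  have hJe : (J : ℝ≥0∞) = ENNReal.ofReal J := (ENNReal.ofReal_natCast J).symm
  have hkey : volume T₀ ≤ ENNReal.ofReal (3 * 2 ^ d * (ρ / δ)) * volume (closedBall p δ) := by
    have h1 : volume T₀ ≤ ENNReal.ofReal ((J:ℝ)⁻¹ * 2 ^ d) * volume (closedBall p δ) := by
      rw [ENNReal.ofReal_mul (by positivity), mul_assoc, ENNReal.ofReal_inv_of_pos hJpos, ← hJe]
      rw [← ENNReal.mul_le_iff_le_inv (by rw [hJ]; simp) (ENNReal.natCast_ne_top _)]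
      exact hsum
    refine h1.trans (mul_le_mul' (ENNReal.ofReal_le_ofReal ?_) le_rfl)
    have h2 : (J:ℝ)⁻¹ ≤ 3 * (ρ / δ) := by
      rw [inv_le_comm₀ hJpos (by positivity)]
      refine le_trans (le_of_eq ?_) hJ0
      field_simp
    calc (J:ℝ)⁻¹ * 2 ^ d ≤ 3 * (ρ / δ) * 2 ^ d := mul_le_mul_of_nonneg_right h2 (by positivity)
      _ = _ := by ring
  rw [ub_apply]
  calc (volume (closedBall p δ))⁻¹ * volume.restrict (closedBall p δ) (Nbh ρ (W : Set (Ed d)))
      ≤ (volume (closedBall p δ))⁻¹ * volume.restrict (closedBall p δ) S :=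
        mul_le_mul' le_rfl (measure_mono hNS)
    _ = (volume (closedBall p δ))⁻¹ * volume T₀ := by rw [Measure.restrict_apply hSc.measurableSet]
    _ ≤ (volume (closedBall p δ))⁻¹ *
          (ENNReal.ofReal (3 * 2 ^ d * (ρ / δ)) * volume (closedBall p δ)) :=
        mul_le_mul' le_rfl hkey
    _ = _ := by rw [mul_left_comm, ENNReal.inv_mul_cancel hV0 hVt, mul_one]

theorem ub_nb_far {p : Ed d} {ρ δ : ℝ} {W : AffineSubspace ℝ (Ed d)}
    (h : ¬ ∃ y ∈ W, dist p y ≤ ρ + δ) : ub p δ (Nbh ρ (W : Set (Ed d))) = 0 := by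
  rw [ub_apply, Measure.restrict_apply' isClosed_closedBall.measurableSet]
  have : Nbh ρ (W : Set (Ed d)) ∩ closedBall p δ = ∅ := by
    rw [Set.eq_empty_iff_forall_notMem]
    rintro z ⟨⟨w, hw, hzw⟩, hz⟩
    apply h
    refine ⟨w, hw, ?_⟩
    rw [← dist_eq_norm] at hzw
    have h1 : dist z p ≤ δ := hz
    rw [dist_comm] at h1
    linarith [dist_triangle p z w]
  rw [this, measure_empty, mul_zero]

theorem sum_nb_le (P : Finset (Ed d)) {ρ δ : ℝ} (W : AffineSubspace ℝ (Ed d)) {c : ℝ≥0∞}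
    (hc : ∀ p ∈ P, ub p δ (Nbh ρ (W : Set (Ed d))) ≤ c) :
    ∑ p ∈ P, ub p δ (Nbh ρ (W : Set (Ed d))) ≤ (nr P W (ρ + δ) : ℝ≥0∞) * c := by
  classical
  unfold nr
  rw [← Finset.sum_filter_add_sum_filter_not P (fun p => ∃ y ∈ W, dist p y ≤ ρ + δ)]
  have h0 : ∑ p ∈ P.filter (fun p => ¬ ∃ y ∈ W, dist p y ≤ ρ + δ),
      ub p δ (Nbh ρ (W : Set (Ed d))) = 0 :=
    Finset.sum_eq_zero fun p hp => ub_nb_far (Finset.mem_filter.1 hp).2
  rw [h0, add_zero]
  calc ∑ p ∈ P.filter (fun p => ∃ y ∈ W, dist p y ≤ ρ + δ), ub p δ (Nbh ρ (W : Set (Ed d)))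
      ≤ ∑ _p ∈ P.filter (fun p => ∃ y ∈ W, dist p y ≤ ρ + δ), c :=
        Finset.sum_le_sum fun p hp => hc p (Finset.mem_filter.1 hp).1
    _ = _ := by rw [Finset.sum_const, nsmul_eq_mul]

/-- non-concentration of the smoothed counting measure near planes -/
theorem pm_slab {P : Finset (Ed d)} (hP : P.Nonempty) {δ : ℝ} (hδ : 0 < δ) {η : ℝ}
    (hη1 : η ≤ 1) {F : ℝ} (hF : 0 ≤ F) (W : AffineSubspace ℝ (Ed d))
    (hW : W.direction ≠ ⊤) (h : ∀ w : ℝ, δ ≤ w → (nr P W w : ℝ) ≤ F * w ^ η * P.card)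
    {ρ : ℝ} (hρ : 0 < ρ) :
    pm P δ (Nbh ρ (W : Set (Ed d))) ≤ ENNReal.ofReal (F * (2 ^ η * (3 * 2 ^ d)) * ρ ^ η) := by
  have hc0 : (P.card : ℝ≥0∞) ≠ 0 := by exact_mod_cast hP.card_pos.ne'
  have hct : (P.card : ℝ≥0∞) ≠ ⊤ := ENNReal.natCast_ne_top _
  have key : ∀ (r c : ℝ), 0 ≤ c → (∀ p ∈ P, ub p δ (Nbh ρ (W : Set (Ed d))) ≤ ENNReal.ofReal c) →
      ρ + δ ≤ r → δ ≤ r → F * r ^ η * c ≤ F * (2 ^ η * (3 * 2 ^ d)) * ρ ^ η →
      pm P δ (Nbh ρ (W : Set (Ed d))) ≤ ENNReal.ofReal (F * (2 ^ η * (3 * 2 ^ d)) * ρ ^ η) := by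
    intro r c hc hub hr hδr hle
    have hr0 : 0 ≤ r := hδ.le.trans hδr
    rw [pm_apply]
    calc (P.card : ℝ≥0∞)⁻¹ * ∑ p ∈ P, ub p δ (Nbh ρ (W : Set (Ed d)))
        ≤ (P.card : ℝ≥0∞)⁻¹ * ((nr P W (ρ + δ) : ℝ≥0∞) * ENNReal.ofReal c) :=
          mul_le_mul' le_rfl (sum_nb_le P W hub)
      _ ≤ (P.card : ℝ≥0∞)⁻¹ * (ENNReal.ofReal (F * r ^ η * P.card) * ENNReal.ofReal c) := by
          refine mul_le_mul' le_rfl (mul_le_mul' ?_ le_rfl)
          rw [← ENNReal.ofReal_natCast]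
          refine ENNReal.ofReal_le_ofReal (le_trans ?_ (h r hδr))
          exact_mod_cast nr_mono P W hr
      _ = (P.card : ℝ≥0∞)⁻¹ * ((P.card : ℝ≥0∞) * ENNReal.ofReal (F * r ^ η * c)) := by
          rw [← ENNReal.ofReal_mul (by positivity), ← ENNReal.ofReal_natCast P.card,
            ← ENNReal.ofReal_mul (by positivity)]
          congr 2
          ring
      _ = ENNReal.ofReal (F * r ^ η * c) := by
          rw [← mul_assoc, ENNReal.inv_mul_cancel hc0 hct, one_mul]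
      _ ≤ _ := ENNReal.ofReal_le_ofReal hle
  have h3 : (1:ℝ) ≤ 3 * 2 ^ d := by
    have : (1:ℝ) ≤ 2 ^ d := one_le_pow₀ (by norm_num)
    linarith
  rcases le_or_gt δ ρ with h1 | h1
  · refine key (2 * ρ) 1 zero_le_one (fun p _ => ?_) (by linarith) (by linarith) ?_
    · rw [ENNReal.ofReal_one]; exact ub_le_one p hδ _
    · rw [Real.mul_rpow (by norm_num) hρ.le]
      have h4 : 0 ≤ F * (2 ^ η * ρ ^ η) := by positivity
      calc F * (2 ^ η * ρ ^ η) * 1 ≤ F * (2 ^ η * ρ ^ η) * (3 * 2 ^ d) :=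
            mul_le_mul_of_nonneg_left h3 h4
        _ = _ := by ring
  · refine key (2 * δ) (3 * 2 ^ d * (ρ / δ)) (by positivity) (fun p _ => ub_slab hδ hρ W hW)
      (by linarith) (by linarith) ?_
    have h2 : ρ / δ ≤ (ρ / δ) ^ η := by
      conv_lhs => rw [← Real.rpow_one (ρ / δ)]
      exact Real.rpow_le_rpow_of_exponent_ge (by positivity) ((div_le_one hδ).2 h1.le) hη1
    calc F * (2 * δ) ^ η * (3 * 2 ^ d * (ρ / δ))
        ≤ F * (2 * δ) ^ η * (3 * 2 ^ d * (ρ / δ) ^ η) := by gcongr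
      _ = _ := by
          rw [Real.mul_rpow (by norm_num) hδ.le, Real.div_rpow hρ.le hδ.le]
          have : (0:ℝ) < δ ^ η := by positivity
          field_simp

/-- covering in the image of a map, counting form -/
theorem coverM {α : Type*} [DecidableEq α] {k : ℕ} (P : Finset α) (ψ : α → Ed k) (x : Ed k)
    {ρ r : ℝ} (hr : 0 < r) (hρ : r ≤ ρ) {N : ℝ} (hN0 : 0 ≤ N) (hP : ∀ p ∈ P, dist (ψ p) x ≤ ρ)
    (hN : ∀ p₀ ∈ P, ∀ Q ⊆ P, (∀ p ∈ Q, dist (ψ p) (ψ p₀) ≤ r) → (Q.card : ℝ) ≤ N) :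
    (P.card : ℝ) ≤ ((2 * k + 5) * (ρ / r)) ^ k * N := by
  classical
  have hd : (0:ℝ) ≤ k := Nat.cast_nonneg k
  have hρ0 : 0 < ρ := hr.trans_le hρ
  set a : ℝ := r / (k + 1) with ha
  have ha0 : 0 < a := by positivity
  set M : ℤ := ⌈ρ / a⌉ with hM
  have hM0 : 0 ≤ M := Int.ceil_nonneg (by positivity)
  set g : α → (Fin k → ℤ) := fun p i => ⌊(ψ p i - x i) / a⌋ with hg
  have himg : P.image g ⊆ Fintype.piFinset fun _ : Fin k => Finset.Icc (-M) M := by
    intro v hv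
    obtain ⟨p, hp, rfl⟩ := Finset.mem_image.1 hv
    rw [Fintype.mem_piFinset]
    intro i
    have h1 : |ψ p i - x i| ≤ ρ := (H978b.coord_le_dist (ψ p) x i).trans (hP p hp)
    have h2 := abs_le.1 h1
    have h3 : (ψ p i - x i) / a ≤ ρ / a := by gcongr; exact h2.2
    have h4 : -(ρ / a) ≤ (ψ p i - x i) / a := by
      rw [← neg_div]
      gcongr
      exact h2.1
    have h5 : ρ / a ≤ M := Int.le_ceil _
    rw [Finset.mem_Icc]
    constructor
    · rw [hg]
      refine Int.le_floor.2 ?_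
      push_cast
      linarith
    · rw [hg]
      have h6 := Int.floor_le ((ψ p i - x i) / a)
      have h7 : ((⌊(ψ p i - x i) / a⌋ : ℤ) : ℝ) ≤ (M : ℝ) := by linarith
      exact_mod_cast h7
  have hcard : ((P.image g).card : ℝ) ≤ ((2 * k + 5) * (ρ / r)) ^ k := by
    have h1 := Finset.card_le_card himg
    rw [Fintype.card_piFinset] at h1
    simp only [Int.card_Icc, Finset.prod_const, Finset.card_univ, Fintype.card_fin] at h1
    have h2 : (((M + 1 - -M).toNat : ℕ) : ℝ) = 2 * M + 1 := by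
      have h3 : ((M + 1 - -M).toNat : ℤ) = 2 * M + 1 := by
        rw [Int.toNat_of_nonneg (by omega)]
        ring
      exact_mod_cast h3
    calc ((P.image g).card : ℝ) ≤ (((M + 1 - -M).toNat ^ k : ℕ) : ℝ) := by exact_mod_cast h1
      _ = (2 * (M:ℝ) + 1) ^ k := by rw [Nat.cast_pow, h2]
      _ ≤ ((2 * k + 5) * (ρ / r)) ^ k := by
          have hM' : (0:ℝ) ≤ M := by exact_mod_cast hM0
          refine pow_le_pow_left₀ (by linarith) ?_ k
          have h4 : (M:ℝ) ≤ ρ / a + 1 := (Int.ceil_lt_add_one _).le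
          have h5 : ρ / a = (k + 1) * (ρ / r) := by
            rw [ha]
            field_simp
          have h6 : 1 ≤ ρ / r := (one_le_div hr).2 hρ
          rw [h5] at h4
          nlinarith
  have hfib : ∀ v ∈ P.image g, (P.filter fun p => g p = v).card ≤ ⌊N⌋₊ := by
    intro v hv
    obtain ⟨p₀, hp₀, rfl⟩ := Finset.mem_image.1 hv
    refine Nat.le_floor (hN p₀ hp₀ _ (Finset.filter_subset _ _) ?_)
    intro p hp
    have h2 := (Finset.mem_filter.1 hp).2
    have h3 : ∀ i, |ψ p i - ψ p₀ i| ≤ a := by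
      intro i
      have h4 := Int.abs_sub_lt_one_of_floor_eq_floor (congrFun h2 i)
      rw [← sub_div, abs_div, abs_of_pos ha0, div_lt_one ha0] at h4
      have h5 : ψ p i - x i - (ψ p₀ i - x i) = ψ p i - ψ p₀ i := by ring
      rw [h5] at h4
      exact h4.le
    refine (H978b.dist_le_of_coord ha0.le h3).trans (le_of_eq ?_)
    rw [ha]
    field_simp
  have h1 := Finset.card_le_mul_card_image P ⌊N⌋₊ hfib
  have h2 : (P.card : ℝ) ≤ (⌊N⌋₊ : ℝ) * ((P.image g).card : ℝ) := by exact_mod_cast h1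
  calc (P.card : ℝ) ≤ (⌊N⌋₊ : ℝ) * ((P.image g).card : ℝ) := h2
    _ ≤ N * ((2 * k + 5) * (ρ / r)) ^ k :=
        mul_le_mul (Nat.floor_le hN0) hcard (Nat.cast_nonneg _) hN0
    _ = _ := mul_comm _ _

/-- the number of points of a bounded set in a slab, from the number of points in balls -/
theorem slab_count {m : ℕ} (P : Finset (Ed d)) (x₀ : Ed d) {R w : ℝ} (hw : 0 < w) (hwR : w ≤ R)
    (hP : ∀ p ∈ P, dist p x₀ ≤ R) {N : ℝ} (hN : ∀ y, (cnt P y (3 * w) : ℝ) ≤ N)
    (W : AffineSubspace ℝ (Ed d)) (hW : finrank ℝ W.direction ≤ m) :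
    (nr P W w : ℝ) ≤ ((2 * m + 5) * (2 * R / w)) ^ m * N := by
  classical
  have hR : 0 < R := hw.trans_le hwR
  have hN0 : 0 ≤ N := (Nat.cast_nonneg _).trans (hN x₀)
  set Q := P.filter fun p => ∃ y ∈ W, dist p y ≤ w with hQ
  have hQc : nr P W w = Q.card := by
    unfold nr
    rw [hQ]
  rw [hQc]
  have h1m : (1:ℝ) ≤ (2 * m + 5) * (2 * R / w) := by
    have h2 : 1 ≤ 2 * R / w := by
      rw [one_le_div hw]; linarith
    have h3 : (1:ℝ) ≤ 2 * m + 5 := by
      have : (0:ℝ) ≤ m := Nat.cast_nonneg m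
      linarith
    exact one_le_mul_of_one_le_of_one_le h3 h2
  rcases Q.eq_empty_or_nonempty with h0 | ⟨p₁, hp₁⟩
  · rw [h0, Finset.card_empty, Nat.cast_zero]
    positivity
  obtain ⟨w₀, hw₀, _⟩ := (Finset.mem_filter.1 hp₁).2
  set k := finrank ℝ W.direction with hk
  let b : OrthonormalBasis (Fin k) ℝ W.direction := stdOrthonormalBasis ℝ W.direction
  set ψ : Ed d → Ed k := fun p => b.repr (W.direction.orthogonalProjection (p - w₀)) with hψ
  have hψd : ∀ p p', dist (ψ p) (ψ p') =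
      ‖W.direction.orthogonalProjection (p - p')‖ := by
    intro p p'
    rw [hψ]
    simp only
    rw [b.repr.dist_map, dist_eq_norm, ← map_sub, sub_sub_sub_cancel_right]
  have hnear : ∀ p ∈ Q, ∀ p' ∈ Q, dist p p' ≤ dist (ψ p) (ψ p') + 2 * w := by
    intro p hp p' hp'
    obtain ⟨y, hy, hpy⟩ := (Finset.mem_filter.1 hp).2
    obtain ⟨y', hy', hpy'⟩ := (Finset.mem_filter.1 hp').2
    have h3 : y - y' ∈ W.direction := AffineSubspace.vsub_mem_direction hy hy'
    rw [hψd]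
    set v := p - p' with hv
    have h4 : v = (y - y') + ((p - y) - (p' - y')) := by rw [hv]; abel
    have h5 : ‖v - (W.direction.orthogonalProjection v : Ed d)‖ ≤ 2 * w := by
      have h6 : ‖v - (W.direction.orthogonalProjection v : Ed d)‖ ≤ ‖v - (y - y')‖ := by
        have := Submodule.starProjection_minimal (U := W.direction) v
        calc ‖v - (W.direction.orthogonalProjection v : Ed d)‖
            = ⨅ z : W.direction, ‖v - z‖ := this
          _ ≤ ‖v - ((⟨y - y', h3⟩ : W.direction) : Ed d)‖ :=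
              ciInf_le ⟨0, by rintro _ ⟨z, rfl⟩; exact norm_nonneg _⟩ _
          _ = _ := rfl
      refine h6.trans ?_
      rw [h4, add_sub_cancel_left]
      refine (norm_sub_le _ _).trans ?_
      rw [← dist_eq_norm, ← dist_eq_norm]
      linarith
    rw [dist_eq_norm, ← hv]
    calc ‖v‖ = ‖(W.direction.orthogonalProjection v : Ed d) +
          (v - (W.direction.orthogonalProjection v : Ed d))‖ := by
          congr 1; abel
      _ ≤ ‖(W.direction.orthogonalProjection v : Ed d)‖ +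
          ‖v - (W.direction.orthogonalProjection v : Ed d)‖ := norm_add_le _ _
      _ ≤ _ := by
          refine add_le_add (le_of_eq ?_) h5
          rfl
  have hψle : ∀ p p', dist (ψ p) (ψ p') ≤ dist p p' := by
    intro p p'
    rw [hψd, dist_eq_norm]
    exact Submodule.norm_orthogonalProjection_apply_le _ _
  have hres := coverM (k := k) Q ψ (ψ x₀) (ρ := 2 * R) (r := w) hw (by linarith) hN0
    (fun p hp => (hψle p x₀).trans (by
      have := hP p (Finset.mem_filter.1 hp).1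
      linarith))
    (fun p₀ hp₀ Q' hQ' hd' => by
      refine le_trans ?_ (hN p₀)
      unfold cnt
      refine Nat.cast_le.2 (Finset.card_le_card fun p hp => ?_)
      refine Finset.mem_filter.2 ⟨(Finset.mem_filter.1 (hQ' hp)).1, ?_⟩
      have h6 := hnear p (hQ' hp) p₀ hp₀
      have h7 := hd' p hp
      linarith)
  refine hres.trans (mul_le_mul_of_nonneg_right ?_ hN0)
  have hkm : (k:ℝ) ≤ m := by exact_mod_cast hW
  calc ((2 * (k:ℝ) + 5) * (2 * R / w)) ^ k ≤ ((2 * m + 5) * (2 * R / w)) ^ k := by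
        gcongr
    _ ≤ ((2 * m + 5) * (2 * R / w)) ^ m := pow_le_pow_right₀ h1m hW

end Vale.Agent.P054.H978o
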