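import Vale.Agent.P054.H978o.Rate
import Vale.Agent.P054.H978o.Slab
import Vale.Agent.P054.H978b.Main

/-! Odd dimension: discrete form of the uniform Falconer theorem, two separated pieces, then sets
in the unit ball which are not concentrated in a ball of radius `1/4` (helper978). -/

namespace Vale.Agent.P054.H978o

open MeasureTheory Metric Set Filter Module
open scoped ENNReal NNReal Topology
open Vale.Agent.P118 Vale.Agent.P118.FD
open Vale.Agent.P054.H978b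

/-- two separated pieces -/
theorem core1O {q : ℕ} (hq : 1 ≤ q) {s η : ℝ} (hs0 : 0 < s) (hsd : s ≤ (2 * q + 1 : ℕ))
    (hη0 : 0 < η) (hη1 : η ≤ 1) {E₁ E₂ : Set (Ed (2 * q + 1))}
    (hE₁ : MeasurableSet E₁) (hE₂ : MeasurableSet E₂) {A : ℕ}
    (hA : ∀ (m : ℕ) (μ ν : Measure (Ed (2 * q + 1))), AdmO q η E₁ E₂ s m μ ν →
      ∀ K : Set ℝ, IsCompact K → (∀ᵐ z ∂(μ.prod ν), dist z.1 z.2 ∈ K) →
      ENNReal.ofReal ((2:ℝ)⁻¹ ^ ((A + 1 + m) * (A + 1))) ≤ volume K)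
    {P₁ P₂ : Finset (Ed (2 * q + 1))} (hP₁ : P₁.Nonempty) (hP₂ : P₂.Nonempty) {δ : ℝ} (hδ : 0 < δ)
    (h1 : ∀ p ∈ P₁, closedBall p δ ⊆ E₁) (h2 : ∀ p ∈ P₂, closedBall p δ ⊆ E₂)
    {F : ℝ} (hF : 0 ≤ F) (hc1 : ∀ x, ∀ r : ℝ, δ ≤ r → (cnt P₁ x r : ℝ) ≤ F * r ^ s * P₁.card)
    (hc2 : ∀ x, ∀ r : ℝ, δ ≤ r → (cnt P₂ x r : ℝ) ≤ F * r ^ s * P₂.card)
    (hw1 : ∀ W : AffineSubspace ℝ (Ed (2 * q + 1)), finrank ℝ W.direction ≤ q + 1 →
      ∀ w : ℝ, δ ≤ w → (nr P₁ W w : ℝ) ≤ F * w ^ η * P₁.card)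
    (hw2 : ∀ W : AffineSubspace ℝ (Ed (2 * q + 1)), finrank ℝ W.direction ≤ q + 1 →
      ∀ w : ℝ, δ ≤ w → (nr P₂ W w : ℝ) ≤ F * w ^ η * P₂.card) {m : ℕ}
    (hm : F * 2 ^ s * (2 ^ η * (3 * 2 ^ (2 * q + 1))) ≤ 2 ^ m) (T : Finset ℝ)
    (hT : ∀ p ∈ P₁, ∀ p' ∈ P₂, ∃ t ∈ T, |dist p p' - t| ≤ δ) :
    (2:ℝ)⁻¹ ^ ((A + 1 + m) * (A + 1)) ≤ T.card * (6 * δ) := by
  classical
  have e1 := pm_univ hP₁ hδ
  have e2 := pm_univ hP₂ hδ
  have hfin1 : IsFiniteMeasure (pm P₁ δ) := ⟨by rw [e1]; exact ENNReal.one_lt_top⟩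
  have hfin2 : IsFiniteMeasure (pm P₂ δ) := ⟨by rw [e2]; exact ENNReal.one_lt_top⟩
  have hz1 : (1:ℝ) ≤ 2 ^ s := Real.one_le_rpow (by norm_num) hs0.le
  have hz2 : (1:ℝ) ≤ 2 ^ η * (3 * 2 ^ (2 * q + 1)) := by
    have h1' : (1:ℝ) ≤ 2 ^ η := Real.one_le_rpow (by norm_num) hη0.le
    have h2' : (1:ℝ) ≤ 2 ^ (2 * q + 1) := one_le_pow₀ (by norm_num)
    have h3' : (1:ℝ) ≤ 3 * 2 ^ (2 * q + 1) := by linarith
    exact one_le_mul_of_one_le_of_one_le h1' h3'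
  have hm1 : F * 2 ^ s ≤ 2 ^ m := by
    refine le_trans ?_ hm
    exact le_mul_of_one_le_right (by positivity) hz2
  have hm2 : F * (2 ^ η * (3 * 2 ^ (2 * q + 1))) ≤ 2 ^ m := by
    refine le_trans ?_ hm
    rw [mul_assoc]
    refine mul_le_mul_of_nonneg_left ?_ hF
    exact le_mul_of_one_le_left (by positivity) hz1
  have hcast2 : (((2:ℝ≥0) ^ m : ℝ≥0) : ℝ≥0∞) = ENNReal.ofReal ((2:ℝ) ^ m) := by
    rw [ENNReal.ofReal_pow (by norm_num), ENNReal.ofReal_ofNat]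
    push_cast
    rfl
  have hnc : ∀ P : Finset (Ed (2 * q + 1)), P.Nonempty →
      (∀ W : AffineSubspace ℝ (Ed (2 * q + 1)), finrank ℝ W.direction ≤ q + 1 →
        ∀ w : ℝ, δ ≤ w → (nr P W w : ℝ) ≤ F * w ^ η * P.card) →
      NCU q η (2 ^ m) (pm P δ) := by
    intro P hP hc ρ hρ _ W hW
    have hWt : W.direction ≠ ⊤ := by
      intro h
      rw [h, finrank_top, finrank_euclideanSpace, Fintype.card_fin] at hW
      omega
    refine (pm_slab hP hδ hη1 hF W hWt (hc W hW) hρ).trans ?_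
    rw [hcast2, ← ENNReal.ofReal_mul (by positivity)]
    refine ENNReal.ofReal_le_ofReal ?_
    exact mul_le_mul_of_nonneg_right hm2 (by positivity)
  have hfr : ∀ P : Finset (Ed (2 * q + 1)), P.Nonempty →
      (∀ x, ∀ r : ℝ, δ ≤ r → (cnt P x r : ℝ) ≤ F * r ^ s * P.card) →
      Frost (pm P δ) s (2 ^ m) := by
    intro P hP hc x r hr
    refine (pm_frost hP hδ hs0 hsd hF hc x hr).trans ?_
    have h3 : (((2:ℝ≥0) ^ m : ℝ≥0) : ℝ≥0∞) = ENNReal.ofReal ((2:ℝ) ^ m) := by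
      rw [ENNReal.ofReal_pow (by norm_num), ENNReal.ofReal_ofNat]
      push_cast
      rfl
    rw [h3, ← ENNReal.ofReal_mul (by positivity)]
    refine ENNReal.ofReal_le_ofReal ?_
    exact mul_le_mul_of_nonneg_right hm1 (by positivity)
  have hAdm : Adm E₁ E₂ s m (pm P₁ δ) (pm P₂ δ) :=
    { pμ := e1
      pν := e2
      sμ := pm_null hE₁ h1
      sν := pm_null hE₂ h2
      fμ := hfr P₁ hP₁ hc1
      fν := hfr P₂ hP₂ hc2 }
  set K : Set ℝ := ⋃ t ∈ T, Icc (t - 3 * δ) (t + 3 * δ) with hK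
  have hKc : IsCompact K := T.isCompact_biUnion fun t _ => isCompact_Icc
  have hvol : volume K ≤ ENNReal.ofReal (T.card * (6 * δ)) := by
    refine (measure_biUnion_finset_le T _).trans ?_
    rw [ENNReal.ofReal_mul (by positivity), ENNReal.ofReal_natCast, ← nsmul_eq_mul,
      ← Finset.sum_const]
    refine Finset.sum_le_sum fun t _ => ?_
    rw [Real.volume_Icc]
    exact ENNReal.ofReal_le_ofReal (by linarith)
  have hae : ∀ᵐ z ∂((pm P₁ δ).prod (pm P₂ δ)), dist z.1 z.2 ∈ K := by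
    have b1 : ∀ᵐ z ∂((pm P₁ δ).prod (pm P₂ δ)), ∃ p ∈ P₁, dist z.1 p ≤ δ :=
      Measure.quasiMeasurePreserving_fst.ae pm_ae
    have b2 : ∀ᵐ z ∂((pm P₁ δ).prod (pm P₂ δ)), ∃ p ∈ P₂, dist z.2 p ≤ δ :=
      Measure.quasiMeasurePreserving_snd.ae pm_ae
    filter_upwards [b1, b2] with z h3 h4
    obtain ⟨p, hp, hzp⟩ := h3
    obtain ⟨p', hp', hzp'⟩ := h4
    obtain ⟨t, ht, htd⟩ := hT p hp p' hp'
    refine mem_iUnion₂.2 ⟨t, ht, ?_⟩
    have h5 := dist_triangle4 z.1 p p' z.2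
    have h6 := dist_triangle4 p z.1 z.2 p'
    rw [dist_comm p' z.2] at h5
    rw [dist_comm p z.1] at h6
    rw [abs_le] at htd
    constructor <;> linarith [htd.1, htd.2]
  have h7 := (hA m _ _ ⟨hAdm, hnc P₁ hP₁ hw1, hnc P₂ hP₂ hw2⟩ K hKc hae).trans hvol
  exact (ENNReal.ofReal_le_ofReal_iff (by positivity)).1 h7

/-- sets in the unit ball which are not concentrated in a ball of radius `1/4` -/
theorem core2O {q : ℕ} (hq : 1 ≤ q) {s : ℝ} (hs : (q:ℝ) + 1 / 2 < s) (hsd : s ≤ (2 * q + 1 : ℕ))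
    {η : ℝ} (hη0 : 0 < η) (hη1 : η ≤ 1) :
    ∃ (A : ℕ) (c : ℝ), 0 < c ∧ ∀ (P : Finset (Ed (2 * q + 1))) (δ F : ℝ), P.Nonempty → 0 < δ →
      δ ≤ 1 / 16 → 1 ≤ F → (∀ p ∈ P, dist p 0 ≤ 1) →
      (∀ x, (cnt P x (1 / 4) : ℝ) ≤ P.card / 2) →
      (∀ x, ∀ r : ℝ, δ ≤ r → (cnt P x r : ℝ) ≤ F * r ^ s * P.card) →
      (∀ W : AffineSubspace ℝ (Ed (2 * q + 1)), finrank ℝ W.direction ≤ q + 1 →
        ∀ w : ℝ, δ ≤ w → (nr P W w : ℝ) ≤ F * w ^ η * P.card) →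
      ∀ T : Finset ℝ, (∀ p ∈ P, ∀ p' ∈ P, p ≠ p' → ∃ t ∈ T, |dist p p' - t| ≤ δ) →
      c * (F ^ A)⁻¹ ≤ T.card * δ := by
  classical
  have hq0 : (1:ℝ) ≤ q := by exact_mod_cast hq
  have hs0 : 0 < s := by linarith
  obtain ⟨S', hS'1, hS'f, hS'c⟩ := finite_cover_balls_of_compact
    (isCompact_closedBall (0 : Ed (2 * q + 1)) 1) (e := 1 / 16) (by norm_num)
  set S : Finset (Ed (2 * q + 1)) := hS'f.toFinset with hS
  have hS1 : ∀ a ∈ S, dist a 0 ≤ 1 := by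
    intro a ha
    exact hS'1 (hS'f.mem_toFinset.1 ha)
  have hScov : ∀ p : Ed (2 * q + 1), dist p 0 ≤ 1 → ∃ a ∈ S, dist p a ≤ 1 / 16 := by
    intro p hp
    obtain ⟨a, ha, hpa⟩ := mem_iUnion₂.1 (hS'c (mem_closedBall.2 hp))
    exact ⟨a, hS'f.mem_toFinset.2 ha, (mem_ball.1 hpa).le⟩
  have hun : ∀ a b : Ed (2 * q + 1), dist a 0 ≤ 1 → dist b 0 ≤ 1 → ∃ A : ℕ,
      ∀ (m : ℕ) (μ ν : Measure (Ed (2 * q + 1))),
        AdmO q η (closedBall a (1 / 8)) (closedBall b (1 / 8) \ ball a (3 / 16)) s m μ ν →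
        ∀ K : Set ℝ, IsCompact K → (∀ᵐ z ∂(μ.prod ν), dist z.1 z.2 ∈ K) →
        ENNReal.ofReal ((2:ℝ)⁻¹ ^ ((A + 1 + m) * (A + 1))) ≤ volume K := by
    intro a b ha hb
    refine unifO hq hs hη0 (D := 2) (d₀ := 1 / 16) (by norm_num) (by norm_num) (by norm_num)
      isClosed_closedBall.measurableSet
      (isClosed_closedBall.measurableSet.diff isOpen_ball.measurableSet) ?_ ?_ ?_
    · exact closedBall_subset_closedBall' (by linarith)
    · exact sdiff_subset.trans (closedBall_subset_closedBall' (by linarith))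
    · intro x hx y hy
      have h1 : dist x a ≤ 1 / 8 := hx
      have h2 : 3 / 16 ≤ dist y a := not_lt.1 fun h => hy.2 h
      have h3 := dist_triangle y x a
      rw [dist_comm y x] at h3
      linarith
  choose! Af hAf using hun
  set A : ℕ := (S ×ˢ S).sup fun ab => Af ab.1 ab.2 with hAdef
  have hAle : ∀ a ∈ S, ∀ b ∈ S, Af a b ≤ A := by
    intro a ha b hb
    exact Finset.le_sup (f := fun ab : Ed (2 * q + 1) × Ed (2 * q + 1) => Af ab.1 ab.2)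
      (Finset.mem_product.2 ⟨ha, hb⟩ : (a, b) ∈ S ×ˢ S)
  set N : ℕ := S.card + 1 with hN
  have hN1 : (1:ℝ) ≤ N := by rw [hN]; push_cast; linarith [(Nat.cast_nonneg S.card : (0:ℝ) ≤ _)]
  set Y : ℝ := (2:ℝ) ^ s * ((2:ℝ) ^ η * (3 * (2:ℝ) ^ (2 * q + 1))) with hY
  have hY1 : 1 ≤ Y := by
    have h1' : (1:ℝ) ≤ (2:ℝ) ^ η := Real.one_le_rpow (by norm_num) hη0.le
    have h2' : (1:ℝ) ≤ (2:ℝ) ^ (2 * q + 1) := one_le_pow₀ (by norm_num)
    have h3' : (1:ℝ) ≤ 3 * (2:ℝ) ^ (2 * q + 1) := by linarith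
    exact one_le_mul_of_one_le_of_one_le (Real.one_le_rpow (by norm_num) hs0.le)
      (one_le_mul_of_one_le_of_one_le h1' h3')
  have hY0 : 0 < Y := by linarith
  set c : ℝ := (2:ℝ)⁻¹ ^ ((A + 1) * (A + 1)) * ((4 * (N:ℝ) * Y) ^ (A + 1))⁻¹ / 6 with hc
  refine ⟨A + 1, c, by positivity, ?_⟩
  intro P δ F hP hδ hδ1 hF hP1 hhalf hfr hnr T hT
  -- the first piece
  obtain ⟨a, ha, hPa⟩ := pigeon (S := S) hP (f := fun a => P.filter fun p => dist p a ≤ 1 / 16) (by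
    intro p hp
    obtain ⟨a, ha, hpa⟩ := hScov p (hP1 p hp)
    exact Finset.mem_biUnion.2 ⟨a, ha, Finset.mem_filter.2 ⟨hp, hpa⟩⟩)
  set P₁ := P.filter fun p => dist p a ≤ 1 / 16 with hP₁
  -- the complement of the ball
  set Q := P.filter fun p => ¬ dist p a ≤ 1 / 4 with hQ
  have hPc : (0:ℝ) < P.card := by exact_mod_cast hP.card_pos
  have hQc : (P.card : ℝ) / 2 ≤ Q.card := by
    have h1 := Finset.card_filter_add_card_filter_not (s := P) (fun p => dist p a ≤ 1 / 4)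
    have h2 : ((P.filter fun p => dist p a ≤ 1 / 4).card : ℝ) + Q.card = P.card := by
      exact_mod_cast h1
    have h3 := hhalf a
    unfold cnt at h3
    linarith
  have hQne : Q.Nonempty := by
    rw [← Finset.card_pos]
    have : (0:ℝ) < Q.card := by linarith
    exact_mod_cast this
  obtain ⟨b, hb, hPb⟩ := pigeon (S := S) hQne
    (f := fun b => Q.filter fun p => dist p b ≤ 1 / 16) (by
    intro p hp
    obtain ⟨b, hb, hpb⟩ := hScov p (hP1 p (Finset.mem_filter.1 hp).1)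
    exact Finset.mem_biUnion.2 ⟨b, hb, Finset.mem_filter.2 ⟨hp, hpb⟩⟩)
  set P₂ := Q.filter fun p => dist p b ≤ 1 / 16 with hP₂
  have hSN : (S.card : ℝ) ≤ N := by rw [hN]; push_cast; linarith
  have hc1 : (P.card : ℝ) ≤ 2 * N * P₁.card := by
    have h1 : (P.card : ℝ) ≤ S.card * P₁.card := by exact_mod_cast hPa
    have h2 : (0:ℝ) ≤ P₁.card := Nat.cast_nonneg _
    nlinarith
  have hc2 : (P.card : ℝ) ≤ 2 * N * P₂.card := by
    have h1 : (Q.card : ℝ) ≤ S.card * P₂.card := by exact_mod_cast hPb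
    have h2 : (0:ℝ) ≤ P₂.card := Nat.cast_nonneg _
    nlinarith
  have hP₁ne : P₁.Nonempty := by
    rw [← Finset.card_pos]
    by_contra h
    have h0 : P₁.card = 0 := by omega
    rw [h0, Nat.cast_zero, mul_zero] at hc1
    linarith
  have hP₂ne : P₂.Nonempty := by
    rw [← Finset.card_pos]
    by_contra h
    have h0 : P₂.card = 0 := by omega
    rw [h0, Nat.cast_zero, mul_zero] at hc2
    linarith
  have hsub1 : P₁ ⊆ P := Finset.filter_subset _ _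
  have hsub2 : P₂ ⊆ P := (Finset.filter_subset _ _).trans (Finset.filter_subset _ _)
  -- Frostman bounds of the pieces
  have hfr' : ∀ P' : Finset (Ed (2 * q + 1)), P' ⊆ P → (P.card : ℝ) ≤ 2 * N * P'.card →
      ∀ x, ∀ r : ℝ, δ ≤ r → (cnt P' x r : ℝ) ≤ (2 * N * F) * r ^ s * P'.card := by
    intro P' hsub hcard x r hr
    have hr0 : 0 < r := hδ.trans_le hr
    calc (cnt P' x r : ℝ) ≤ cnt P x r := by exact_mod_cast cnt_le_of_sub hsub x r
      _ ≤ F * r ^ s * P.card := hfr x r hr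
      _ ≤ F * r ^ s * (2 * N * P'.card) := by gcongr
      _ = _ := by ring
  have hnr' : ∀ P' : Finset (Ed (2 * q + 1)), P' ⊆ P → (P.card : ℝ) ≤ 2 * N * P'.card →
      ∀ W : AffineSubspace ℝ (Ed (2 * q + 1)), finrank ℝ W.direction ≤ q + 1 →
      ∀ w : ℝ, δ ≤ w → (nr P' W w : ℝ) ≤ (2 * N * F) * w ^ η * P'.card := by
    intro P' hsub hcard W hW w hw
    have hw0 : 0 < w := hδ.trans_le hw
    calc (nr P' W w : ℝ) ≤ nr P W w := by exact_mod_cast nr_le_of_sub hsub W w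
      _ ≤ F * w ^ η * P.card := hnr W hW w hw
      _ ≤ F * w ^ η * (2 * N * P'.card) := by gcongr
      _ = _ := by ring
  -- the exponent
  set X : ℝ := 2 * N * F * Y with hX
  have hX1 : 1 ≤ X := by
    have h3 : (1:ℝ) ≤ 2 * N := by linarith
    have h4 : (1:ℝ) ≤ 2 * N * F := one_le_mul_of_one_le_of_one_le h3 hF
    exact one_le_mul_of_one_le_of_one_le h4 hY1
  obtain ⟨m', hm1, hm2⟩ := exists_nat_pow_near hX1 (by norm_num : (1:ℝ) < 2)
  have hsep := core1O (m := m' + 1) hq hs0 hsd hη0 hη1 isClosed_closedBall.measurableSet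
    (isClosed_closedBall.measurableSet.diff isOpen_ball.measurableSet)
    (hAf a b (hS1 a ha) (hS1 b hb)) hP₁ne hP₂ne hδ
    (by
      intro p hp
      have h3 := (Finset.mem_filter.1 hp).2
      exact closedBall_subset_closedBall' (by linarith))
    (by
      intro p hp
      have h3 := (Finset.mem_filter.1 hp).2
      have h4 := not_le.1 (Finset.mem_filter.1 (Finset.mem_filter.1 hp).1).2
      intro y hy
      refine ⟨closedBall_subset_closedBall' (by linarith) hy, fun hya => ?_⟩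
      have h5 : dist y p ≤ δ := hy
      have h6 : dist y a < 3 / 16 := hya
      have h7 := dist_triangle p y a
      rw [dist_comm p y] at h7
      linarith)
    (F := 2 * N * F) (by positivity) (hfr' P₁ hsub1 hc1) (hfr' P₂ hsub2 hc2)
    (hnr' P₁ hsub1 hc1) (hnr' P₂ hsub2 hc2)
    (by
      refine le_trans (le_of_eq ?_) hm2.le
      rw [hX, hY]; ring) T
    (by
      intro p hp p' hp'
      refine hT p (hsub1 hp) p' (hsub2 hp') ?_
      rintro rfl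
      have h3 := (Finset.mem_filter.1 hp).2
      have h4 := not_le.1 (Finset.mem_filter.1 (Finset.mem_filter.1 hp').1).2
      linarith)
  -- comparison of the constants
  have hAab := hAle a ha b hb
  have h8 : (2:ℝ)⁻¹ ^ ((A + 1 + (m' + 1)) * (A + 1)) ≤
      (2:ℝ)⁻¹ ^ ((Af a b + 1 + (m' + 1)) * (Af a b + 1)) := by
    refine pow_le_pow_of_le_one (by norm_num) (by norm_num) ?_
    exact Nat.mul_le_mul (by omega) (by omega)
  have h9 : (2:ℝ)⁻¹ ^ ((A + 1 + (m' + 1)) * (A + 1)) =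
      (2:ℝ)⁻¹ ^ ((A + 1) * (A + 1)) * (((2:ℝ) ^ (m' + 1)) ^ (A + 1))⁻¹ := by
    rw [add_mul (A + 1) (m' + 1) (A + 1), pow_add, ← pow_mul]
    simp only [inv_pow]
  have h10 : ((2:ℝ) ^ (m' + 1)) ^ (A + 1) ≤ (4 * (N:ℝ) * Y) ^ (A + 1) * F ^ (A + 1) := by
    rw [← mul_pow]
    refine pow_le_pow_left₀ (by positivity) ?_ _
    calc (2:ℝ) ^ (m' + 1) = 2 * 2 ^ m' := by rw [pow_succ]; ring
      _ ≤ 2 * X := by linarith
      _ = 4 * (N:ℝ) * Y * F := by rw [hX]; ring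
  have h11 : ((4 * (N:ℝ) * Y) ^ (A + 1) * F ^ (A + 1))⁻¹ ≤ (((2:ℝ) ^ (m' + 1)) ^ (A + 1))⁻¹ :=
    inv_anti₀ (by positivity) h10
  have h12 : 6 * (c * (F ^ (A + 1))⁻¹) ≤ T.card * (6 * δ) := by
    calc 6 * (c * (F ^ (A + 1))⁻¹)
        = (2:ℝ)⁻¹ ^ ((A + 1) * (A + 1)) * ((4 * (N:ℝ) * Y) ^ (A + 1) * F ^ (A + 1))⁻¹ := by
          rw [hc, mul_inv]; ring
      _ ≤ (2:ℝ)⁻¹ ^ ((A + 1) * (A + 1)) * (((2:ℝ) ^ (m' + 1)) ^ (A + 1))⁻¹ :=
          mul_le_mul_of_nonneg_left h11 (by positivity)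
      _ = (2:ℝ)⁻¹ ^ ((A + 1 + (m' + 1)) * (A + 1)) := h9.symm
      _ ≤ _ := h8.trans hsep
  nlinarith

end Vale.Agent.P054.H978o
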