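import Vale.Agent.P054.H978o.Main
import Vale.Agent.P054.H978b.Final

/-! Odd dimension: sets of dimension greater than `(d + 1) / 2` (helper978). -/

namespace Vale.Agent.P054.H978o

open Metric Set Module
open Vale.Agent.P118.FD
open Vale.Agent.P054.H978b

/-- number of points near a `(q+1)`-plane, from a Frostman bound of exponent `s₀ > q + 1` -/
theorem slab_bound {q : ℕ} (P : Finset (Ed (2 * q + 1))) (x₀ : Ed (2 * q + 1))
    {R s₀ η w : ℝ} (hη : 0 < η) (hP : 2 ≤ P.card) (hR : 0 < R) (hs₀ : 0 < s₀)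
    (hPR : ∀ p ∈ P, dist p x₀ ≤ R) (hw : 0 < w) (hwR : w ≤ R)
    (hfr : ∀ x, ∀ r : ℝ, R * (P.card : ℝ) ^ (-(1 / s₀)) ≤ r → r ≤ R →
        (cnt P x r : ℝ) ≤ (P.card : ℝ) ^ (1 + η) * (r / R) ^ s₀)
    (hww : R * (P.card : ℝ) ^ (-(1 / s₀)) ≤ w) (W : AffineSubspace ℝ (Ed (2 * q + 1)))
    (hW : finrank ℝ W.direction ≤ q + 1) :
    (nr P W w : ℝ) ≤ ((2 * (q + 1 : ℕ) + 5) * 2) ^ (q + 1) * 3 ^ s₀ * (P.card : ℝ) ^ (1 + η) *
      (w / R) ^ (s₀ - (q + 1)) := by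
  have hn2 : (2:ℝ) ≤ P.card := by exact_mod_cast hP
  have hn0 : (0:ℝ) < P.card := by linarith
  have hn1 : (1:ℝ) ≤ P.card := by linarith
  have hN : ∀ y, (cnt P y (3 * w) : ℝ) ≤ (P.card : ℝ) ^ (1 + η) * (3 * w / R) ^ s₀ := by
    intro y
    by_cases h3 : 3 * w ≤ R
    · exact hfr y (3 * w) (by linarith) h3
    · push Not at h3
      have h4 : (1:ℝ) ≤ (3 * w / R) ^ s₀ :=
        Real.one_le_rpow ((one_le_div hR).2 h3.le) hs₀.le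
      have h5 : (P.card : ℝ) ≤ (P.card : ℝ) ^ (1 + η) := by
        conv_lhs => rw [← Real.rpow_one (P.card : ℝ)]
        exact Real.rpow_le_rpow_of_exponent_le hn1 (by linarith)
      calc (cnt P y (3 * w) : ℝ) ≤ P.card := by exact_mod_cast cnt_le_card P y _
        _ ≤ (P.card : ℝ) ^ (1 + η) := h5
        _ = (P.card : ℝ) ^ (1 + η) * 1 := (mul_one _).symm
        _ ≤ _ := mul_le_mul_of_nonneg_left h4 (by positivity)
  have h1 := slab_count (m := q + 1) P x₀ hw hwR hPR hN W hW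
  refine h1.trans (le_of_eq ?_)
  have hwR0 : 0 < w / R := by positivity
  have e1 : 2 * R / w = 2 * (w / R)⁻¹ := by
    rw [inv_div]; ring
  have e2 : 3 * w / R = 3 * (w / R) := by ring
  have e3 : (w / R) ^ (s₀ - (q + 1)) = (w / R) ^ s₀ * ((w / R)⁻¹) ^ (q + 1) := by
    rw [Real.rpow_sub hwR0, div_eq_mul_inv, inv_pow]
    congr 2
    rw [← Real.rpow_natCast]
    push_cast
    rfl
  rw [e1, e2, e3, Real.mul_rpow (by norm_num) hwR0.le]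
  rw [← mul_assoc (2 * ((q + 1 : ℕ) : ℝ) + 5) 2, mul_pow]
  ring

/-- the Frostman bound below the scale `R n ^ (-1/s₀)` -/
theorem frost_lower {d : ℕ} (P : Finset (Ed d)) {R s₀ s₁ η : ℝ} (hη : 0 < η) (hP : 2 ≤ P.card)
    (hR : 0 < R) (hs₁ : 0 < s₁) (hss : s₁ ≤ s₀)
    (hfr : ∀ x, ∀ r : ℝ, R * (P.card : ℝ) ^ (-(1 / s₀)) ≤ r → r ≤ R →
        (cnt P x r : ℝ) ≤ (P.card : ℝ) ^ (1 + η) * (r / R) ^ s₀) (x : Ed d) {r : ℝ}
    (hr1 : (P.card : ℝ) ^ (-(1 / s₁)) * R ≤ r) (hr2 : r ≤ R) :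
    (cnt P x r : ℝ) ≤ (P.card : ℝ) ^ η * P.card * (r / R) ^ s₁ := by
  have hs₀ : 0 < s₀ := by linarith
  obtain ⟨n, hn⟩ : ∃ n : ℝ, n = (P.card : ℝ) := ⟨_, rfl⟩
  have hn2 : (2:ℝ) ≤ n := by rw [hn]; exact_mod_cast hP
  have hn0 : 0 < n := by linarith
  have hn1 : 1 ≤ n := by linarith
  rw [← hn] at hfr hr1 ⊢
  have hδ0 : 0 < n ^ (-(1 / s₁)) := by positivity
  have hw₀1 : n ^ (-(1 / s₀)) ≤ 1 :=
    Real.rpow_le_one_of_one_le_of_nonpos hn1 (by rw [neg_nonpos]; positivity)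
  have hn1η : n ^ (1 + η) = n ^ η * n := by
    rw [Real.rpow_add hn0, Real.rpow_one]
    ring
  have hr0 : 0 < r := lt_of_lt_of_le (mul_pos hδ0 hR) hr1
  have hrR : r / R ≤ 1 := (div_le_one hR).2 hr2
  have hrR0 : 0 < r / R := by positivity
  rcases le_or_gt (R * n ^ (-(1 / s₀))) r with h2 | h2
  · calc (cnt P x r : ℝ) ≤ n ^ (1 + η) * (r / R) ^ s₀ := hfr x r h2 hr2
      _ ≤ n ^ (1 + η) * (r / R) ^ s₁ := by
          refine mul_le_mul_of_nonneg_left ?_ (by positivity)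
          exact Real.rpow_le_rpow_of_exponent_ge hrR0 hrR hss
      _ = n ^ η * n * (r / R) ^ s₁ := by rw [hn1η]
  · have h3 : R * n ^ (-(1 / s₀)) ≤ R := mul_le_of_le_one_right hR.le hw₀1
    have h4 := hfr x _ le_rfl h3
    have h5 : (R * n ^ (-(1 / s₀)) / R) ^ s₀ = n⁻¹ := by
      rw [mul_div_cancel_left₀ _ hR.ne', ← Real.rpow_mul hn0.le, ← Real.rpow_neg_one]
      congr 1
      field_simp
    rw [h5] at h4
    have h6 : n ^ (1 + η) * n⁻¹ = n ^ η := by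
      rw [hn1η]
      field_simp
    rw [h6] at h4
    have h7 : n⁻¹ ≤ (r / R) ^ s₁ := by
      have h8 : n ^ (-(1 / s₁)) ≤ r / R := by
        rw [le_div_iff₀ hR]
        exact hr1
      calc n⁻¹ = (n ^ (-(1 / s₁))) ^ s₁ := by
            rw [← Real.rpow_mul hn0.le, ← Real.rpow_neg_one]
            congr 1
            field_simp
        _ ≤ _ := Real.rpow_le_rpow hδ0.le h8 hs₁.le
    calc (cnt P x r : ℝ) ≤ cnt P x (R * n ^ (-(1 / s₀))) := by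
          exact_mod_cast cnt_mono P x h2.le
      _ ≤ n ^ η := h4
      _ = n ^ η * (n * n⁻¹) := by rw [mul_inv_cancel₀ hn0.ne', mul_one]
      _ ≤ n ^ η * (n * (r / R) ^ s₁) := by gcongr
      _ = _ := by ring

/-- the plane bound below the scale `R n ^ (-1/s₀)` -/
theorem slab_lower {q : ℕ} (P : Finset (Ed (2 * q + 1))) (x₀ : Ed (2 * q + 1))
    {R s₀ s₁ η η' C₂ : ℝ} (hη : 0 < η) (hη' : 0 < η') (hP : 2 ≤ P.card) (hR : 0 < R)
    (hs₁ : 0 < s₁) (hs₀ : 0 < s₀)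
    (hPR : ∀ p ∈ P, dist p x₀ ≤ R)
    (hC₂ : C₂ = ((2 * (q + 1 : ℕ) + 5) * 2) ^ (q + 1) * 3 ^ s₀) (hC₂0 : 0 < C₂)
    (h1 : η' / s₁ ≤ (s₀ - (q + 1)) / s₀) (h2' : η' ≤ s₀ - (q + 1))
    (hfr : ∀ x, ∀ r : ℝ, R * (P.card : ℝ) ^ (-(1 / s₀)) ≤ r → r ≤ R →
        (cnt P x r : ℝ) ≤ (P.card : ℝ) ^ (1 + η) * (r / R) ^ s₀)
    (W : AffineSubspace ℝ (Ed (2 * q + 1))) (hW : finrank ℝ W.direction ≤ q + 1) {w : ℝ}
    (hw1 : (P.card : ℝ) ^ (-(1 / s₁)) * R ≤ w) (hw2 : w ≤ R) :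
    (nr P W w : ℝ) ≤ C₂ * (P.card : ℝ) ^ η * P.card * (w / R) ^ η' := by
  obtain ⟨κ, hκ⟩ : ∃ κ : ℝ, κ = s₀ - (q + 1) := ⟨_, rfl⟩
  obtain ⟨n, hn⟩ : ∃ n : ℝ, n = (P.card : ℝ) := ⟨_, rfl⟩
  have hn2 : (2:ℝ) ≤ n := by rw [hn]; exact_mod_cast hP
  have hn0 : 0 < n := by linarith
  have hn1 : 1 ≤ n := by linarith
  rw [← hn] at hw1 ⊢
  rw [← hκ] at h1 h2'
  have hδ0 : 0 < n ^ (-(1 / s₁)) := by positivity
  have hw₀1 : n ^ (-(1 / s₀)) ≤ 1 :=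
    Real.rpow_le_one_of_one_le_of_nonpos hn1 (by rw [neg_nonpos]; positivity)
  have hw₀0 : 0 < n ^ (-(1 / s₀)) := by positivity
  have hn1η : n ^ (1 + η) = n ^ η * n := by
    rw [Real.rpow_add hn0, Real.rpow_one]
    ring
  have hw0 : 0 < w := lt_of_lt_of_le (mul_pos hδ0 hR) hw1
  have hwR0 : 0 < w / R := by positivity
  have hwR1 : w / R ≤ 1 := (div_le_one hR).2 hw2
  rcases le_or_gt (R * n ^ (-(1 / s₀))) w with h2 | h2
  · have h3 := slab_bound P x₀ hη hP hR hs₀ hPR hw0 hw2 hfr (by rw [← hn]; exact h2) W hW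
    rw [← hn, ← hC₂, ← hκ] at h3
    refine h3.trans ?_
    have h4 : (w / R) ^ κ ≤ (w / R) ^ η' :=
      Real.rpow_le_rpow_of_exponent_ge hwR0 hwR1 h2'
    calc C₂ * n ^ (1 + η) * (w / R) ^ κ ≤ C₂ * n ^ (1 + η) * (w / R) ^ η' :=
          mul_le_mul_of_nonneg_left h4 (by positivity)
      _ = _ := by rw [hn1η]; ring
  · have h3 := slab_bound P x₀ hη hP hR hs₀ hPR (mul_pos hR hw₀0)
      (mul_le_of_le_one_right hR.le hw₀1) hfr (by rw [← hn]) W hW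
    rw [← hn, ← hC₂, ← hκ, mul_div_cancel_left₀ _ hR.ne'] at h3
    have h4 : (n ^ (-(1 / s₀))) ^ κ ≤ (w / R) ^ η' := by
      have h5 : n ^ (-(1 / s₁)) ≤ w / R := by
        rw [le_div_iff₀ hR]
        exact hw1
      calc (n ^ (-(1 / s₀))) ^ κ = n ^ (-(κ / s₀)) := by
            rw [← Real.rpow_mul hn0.le]
            congr 1
            ring
        _ ≤ n ^ (-(η' / s₁)) := Real.rpow_le_rpow_of_exponent_le hn1 (by linarith)
        _ = (n ^ (-(1 / s₁))) ^ η' := by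
            rw [← Real.rpow_mul hn0.le]
            congr 1
            ring
        _ ≤ (w / R) ^ η' := Real.rpow_le_rpow hδ0.le h5 hη'.le
    calc (nr P W w : ℝ) ≤ nr P W (R * n ^ (-(1 / s₀))) := by
          exact_mod_cast nr_mono P W h2.le
      _ ≤ C₂ * n ^ (1 + η) * (n ^ (-(1 / s₀))) ^ κ := h3
      _ ≤ C₂ * n ^ (1 + η) * (w / R) ^ η' := mul_le_mul_of_nonneg_left h4 (by positivity)
      _ = _ := by rw [hn1η]; ring

/-- the exponents -/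
theorem final_arith {n c C₂ s₁ h η ε : ℝ} {A : ℕ} (hn1 : 1 ≤ n) (hc : 0 < c) (hC₂ : 0 < C₂)
    (hh : 1 ≤ h) (hs₁ : h < s₁) (hs₁' : s₁ ≤ h + ε / 2) (hε : 0 < ε)
    (hη : η = ε / (2 * (A + 1))) :
    c / C₂ ^ A * n ^ (1 / h - ε) ≤ c / ((C₂ * n ^ η) ^ A * n ^ (-(1 / s₁))) := by
  have hn0 : 0 < n := by linarith
  have hs₁0 : 0 < s₁ := by linarith
  have hA0 : (0:ℝ) ≤ A := Nat.cast_nonneg A
  have h10 : ((C₂ * n ^ η) ^ A * n ^ (-(1 / s₁))) = C₂ ^ A * n ^ (η * A - 1 / s₁) := by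
    rw [mul_pow, mul_assoc, ← Real.rpow_natCast (n ^ η), ← Real.rpow_mul hn0.le,
      ← Real.rpow_add hn0]
    congr 2
  have h10' : c / (C₂ ^ A * n ^ (η * A - 1 / s₁)) = c / C₂ ^ A * n ^ (-(η * A - 1 / s₁)) := by
    rw [Real.rpow_neg hn0.le]
    field_simp
  rw [h10, h10']
  refine mul_le_mul_of_nonneg_left ?_ (by positivity)
  refine Real.rpow_le_rpow_of_exponent_le hn1 ?_
  have h11 : η * A ≤ ε / 2 := by
    rw [hη, div_mul_eq_mul_div, div_le_iff₀ (by positivity)]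
    nlinarith
  have h12 : 1 / h - 1 / s₁ ≤ ε / 2 := by
    rw [div_sub_div _ _ (by positivity) hs₁0.ne', div_le_iff₀ (by positivity)]
    have h14 : 1 ≤ h * s₁ := by nlinarith
    nlinarith
  linarith

/-- **odd dimension, sets of dimension `> (d + 1) / 2`** -/
theorem mainIIO {q : ℕ} (hq : 1 ≤ q) {s₀ : ℝ} (hs : (q:ℝ) + 1 < s₀) {ε : ℝ} (hε : 0 < ε) :
    ∃ η : ℝ, 0 < η ∧ ∃ c : ℝ, 0 < c ∧ ∀ (P : Finset (Ed (2 * q + 1))) (x₀ : Ed (2 * q + 1)) (R : ℝ),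
      2 ≤ P.card → 0 < R → (∀ p ∈ P, dist p x₀ ≤ R) →
      (∀ x, ∀ r : ℝ, R * (P.card : ℝ) ^ (-(1 / s₀)) ≤ r → r ≤ R →
        (cnt P x r : ℝ) ≤ (P.card : ℝ) ^ (1 + η) * (r / R) ^ s₀) →
      c * (P.card : ℝ) ^ (1 / ((q:ℝ) + 1 / 2) - ε) ≤ ((DS P).ncard : ℝ) := by
  have hq0 : (1:ℝ) ≤ q := by exact_mod_cast hq
  have hs0 : 0 < s₀ := by linarith
  set h : ℝ := (q:ℝ) + 1 / 2 with hh
  have hh1 : 1 ≤ h := by rw [hh]; linarith
  set s₁ : ℝ := min (q + 1) (h + ε / 2) with hs₁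
  have h1 : h < s₁ := lt_min (by rw [hh]; linarith) (by linarith)
  have hs₁0 : 0 < s₁ := by linarith
  have hs₁s : s₁ ≤ s₀ := (min_le_left _ _).trans hs.le
  set κ : ℝ := s₀ - (q + 1) with hκ
  have hκ0 : 0 < κ := by rw [hκ]; linarith
  set η' : ℝ := min 1 (s₁ * κ / s₀) with hη'
  have hη'0 : 0 < η' := lt_min one_pos (by positivity)
  have hη'1 : η' ≤ 1 := min_le_left _ _
  have hη'κ : η' / s₁ ≤ κ / s₀ := by
    rw [div_le_iff₀ hs₁0]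
    refine (min_le_right _ _).trans (le_of_eq ?_)
    ring
  have hη'κ' : η' ≤ κ := by
    refine (min_le_right _ _).trans ?_
    rw [div_le_iff₀ hs0, mul_comm κ]
    exact mul_le_mul_of_nonneg_right hs₁s hκ0.le
  obtain ⟨A, c, hc, hmain⟩ := mainIO hq h1 hη'0 hη'1
  obtain ⟨η, hη⟩ : ∃ η : ℝ, η = ε / (2 * (A + 1)) := ⟨_, rfl⟩
  have hη0 : 0 < η := by rw [hη]; positivity
  obtain ⟨C₂, hC₂⟩ : ∃ C₂ : ℝ, C₂ = ((2 * (q + 1 : ℕ) + 5) * 2) ^ (q + 1) * 3 ^ s₀ := ⟨_, rfl⟩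
  have hC₂1 : 1 ≤ C₂ := by
    rw [hC₂]
    refine one_le_mul_of_one_le_of_one_le (one_le_pow₀ ?_) (Real.one_le_rpow (by norm_num) hs0.le)
    push_cast
    nlinarith
  have hC₂0 : 0 < C₂ := by linarith
  refine ⟨η, hη0, c / C₂ ^ A, by positivity, ?_⟩
  intro P x₀ R hP hR hPR hfr
  have hn2 : (2:ℝ) ≤ (P.card : ℝ) := by exact_mod_cast hP
  have hn1 : 1 ≤ (P.card : ℝ) := by linarith
  have hn0 : 0 < (P.card : ℝ) := by linarith
  have hnη : 1 ≤ (P.card : ℝ) ^ η := Real.one_le_rpow hn1 hη0.le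
  have hK : 1 ≤ C₂ * (P.card : ℝ) ^ η := one_le_mul_of_one_le_of_one_le hC₂1 hnη
  have hδ0 : 0 < (P.card : ℝ) ^ (-(1 / s₁)) := by positivity
  have hδ1 : (P.card : ℝ) ^ (-(1 / s₁)) ≤ 1 :=
    Real.rpow_le_one_of_one_le_of_nonpos hn1 (by rw [neg_nonpos]; positivity)
  obtain ⟨T, hT, _, hTc⟩ := hmain P x₀ R ((P.card : ℝ) ^ (-(1 / s₁))) (C₂ * (P.card : ℝ) ^ η)
    hP hR hδ0 hδ1 hK hPR (fun x r hr1 hr2 => by
      have hr0 : 0 < r := lt_of_lt_of_le (mul_pos hδ0 hR) hr1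
      have h3 := frost_lower P hη0 hP hR hs₁0 hs₁s hfr x hr1 hr2
      have h4 : (0:ℝ) ≤ (P.card : ℝ) ^ η * P.card * (r / R) ^ s₁ := by positivity
      calc (cnt P x r : ℝ) ≤ (P.card : ℝ) ^ η * P.card * (r / R) ^ s₁ := h3
        _ ≤ C₂ * ((P.card : ℝ) ^ η * P.card * (r / R) ^ s₁) := le_mul_of_one_le_left h4 hC₂1
        _ = _ := by ring)
    (fun W hW w hw1 hw2 =>
      slab_lower P x₀ hη0 hη'0 hP hR hs₁0 hs0 hPR hC₂ hC₂0 hη'κ hη'κ' hfr W hW hw1 hw2)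
  have h9 : (T.card : ℝ) ≤ ((DS P).ncard : ℝ) := by
    exact_mod_cast card_le_DS hT
  exact (final_arith hn1 hc hC₂0 hh1 h1 (min_le_right _ _) hε hη).trans (hTc.trans h9)

end Vale.Agent.P054.H978o
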