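import Vale.Agent.P054.H978o.Thin

/-! Odd dimension: the single scale bound and its uniform version (helper978). -/

namespace Vale.Agent.P054.H978o

open MeasureTheory Metric Set Module Filter
open scoped ENNReal NNReal Topology
open Vale.Agent.P118 Vale.Agent.P118.FD
open Vale.Agent.P054.H978b (dens SB SB_ne_top PM_ge two_inv_pow_mul tsum_half)

variable {d : ℕ}

open FinD in
open Vale.Agent.P118.F.FinA (TelG_add TelG_mass TelG_le_sum TelG_split bound_all) in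
/-- the single scale bound under full weak thin tubes -/
theorem main_of_F {κ : ℝ} (hκ1 : 1 ≤ κ) (hκd : 2 * κ ≤ d) (hTop : StTopUC d κ)
    (hRules : StRules d κ) (hGame : StGame d) {s : ℝ} (hs : d - κ < s) (μ ν : Measure (Ed d))
    [IsFiniteMeasure μ] [IsFiniteMeasure ν] (C : ℝ≥0) (D d₀ : ℝ) (hStd : Std μ ν s C D d₀)
    (hThin : ThinF κ μ ν) :
    ∃ M n : ℕ, 1 ≤ M ∧ 1 ≤ n ∧ ∃ c : ℝ, 0 < c ∧ ∃ K : ℝ≥0, ∀ k : ℕ, 1 ≤ k →
      TelG M n k (PM μ ν) Ds ≤ K * ENNReal.ofReal (del k ^ c) := by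
  classical
  have hfin : IsFiniteMeasure (PM μ ν) := isFinite_PM hStd
  have hspos : 0 < s := by
    have : (κ:ℝ) ≤ d := by linarith
    linarith
  have hDs : Measurable (Ds (d := d)) := continuous_Ds.measurable
  obtain ⟨C₁, hT⟩ := hTop hκ1 hκd
  obtain ⟨n, B, hn1, hBd⟩ := bd_of hκ1 hκd hRules hGame hs C₁
  obtain ⟨M₀, hM₀⟩ := hT μ ν s C D d₀ hs hStd n hn1
  set M : ℕ := M₀ + 1 with hM
  have hTel := hM₀ M (by omega)
  obtain ⟨c₀, hc₀, K₀, hG12⟩ :=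
    hThin (κ - 1 / (2 * n)) (by
      have h1 : (1:ℝ) / (2 * n) ≤ 1 := by
        rw [div_le_one (by positivity)]
        have : (1:ℝ) ≤ n := by exact_mod_cast hn1
        linarith
      linarith) (by
      have hn' : (0:ℝ) < n := by exact_mod_cast hn1
      have : (0:ℝ) < 1 / (2 * n) := by positivity
      linarith) n 4 hn1 (by omega)
  obtain ⟨kC, hkC⟩ := PC.cone_conv (d := d) (κ := κ) hn1 K₀
  -- types
  obtain ⟨hmeasμ, hdisμ, 𝒯μ, Kμ, kμ, hsepμ, hcovμ, hTCμ⟩ :=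
    stTyp d μ s C D hStd.D1 hspos hStd.frμ hStd.suppμ hStd.massμ n hn1
  obtain ⟨hmeasν, hdisν, 𝒯ν, Kν, kν, hsepν, hcovν, hTCν⟩ :=
    stTyp d ν s C D hStd.D1 hspos hStd.frν hStd.suppν hStd.massν n hn1
  -- exponent
  set c : ℝ := min c₀ 1 with hcdef
  have hc : 0 < c := lt_min hc₀ one_pos
  set kk : ℕ := max (max kμ kν) kC with hkk
  -- one pair of types
  have hpair : ∀ r : (ℕ → ℕ) × (ℕ → ℕ), ∃ K : ℝ≥0, r ∈ 𝒯μ ×ˢ 𝒯ν → ∀ k ≥ kk, 1 ≤ k →
      TelG M n k ((PM μ ν).restrict (Ty μ n k r.1 ×ˢ Ty ν n k r.2)) Ds ≤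
        K * ENNReal.ofReal (del k ^ c) := by
    intro r
    by_cases hr : r ∈ 𝒯μ ×ˢ 𝒯ν ∧ TC d n s r.1 ∧ TC d n s r.2
    · obtain ⟨hr1, hr2, hr3⟩ := hr
      obtain ⟨K, hK⟩ := hTel r.1 r.2 B C₁ le_rfl
        (hBd μ D hStd.D1 hStd.suppμ hStd.massμ r.1 hr2)
        (hBd ν D hStd.D1 hStd.suppν hStd.massν r.2 hr3)
      refine ⟨K * (1 + 2 * K₀), fun _ k hk hk1 => ?_⟩
      have hkC' : k ≥ kC := le_trans (le_max_right _ _) hk
      have hδ := Typ.del_pos k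
      have hδ1 := Typ.del_le_one k
      obtain ⟨G₁, G₂, hm1, hm2, hf1, hf2, he1, he2⟩ := hG12 k hk1
      have hc1 := hkC k hkC' 4 le_rfl ν G₁ hf1
      have hc2 := hkC k hkC' 4 le_rfl μ G₂ hf2
      have h1 := hK k hk1 univ univ MeasurableSet.univ MeasurableSet.univ G₁ G₂ hm1 hm2 hc1 hc2
      rw [inter_univ, inter_univ, univ_prod_univ] at h1
      rw [← PM_restrict μ ν (hmeasμ k r.1) (hmeasν k r.2)]
      refine h1.trans ?_
      have h2 : ENNReal.ofReal (del k) ≤ ENNReal.ofReal (del k ^ c) := by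
        apply ENNReal.ofReal_le_ofReal
        conv_lhs => rw [← Real.rpow_one (del k)]
        exact Real.rpow_le_rpow_of_exponent_ge hδ hδ1 (min_le_right _ _)
      have h3 : ENNReal.ofReal (del k ^ c₀) ≤ ENNReal.ofReal (del k ^ c) :=
        ENNReal.ofReal_le_ofReal
          (Real.rpow_le_rpow_of_exponent_ge hδ hδ1 (min_le_left _ _))
      calc (K:ℝ≥0∞) * ENNReal.ofReal (del k) +
            K * ((μ.prod ν) (univ \ G₁) + (ν.prod μ) (univ \ G₂))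
          ≤ K * ENNReal.ofReal (del k ^ c) +
            K * (K₀ * ENNReal.ofReal (del k ^ c) + K₀ * ENNReal.ofReal (del k ^ c)) := by
            refine add_le_add (mul_le_mul' le_rfl h2) (mul_le_mul' le_rfl (add_le_add ?_ ?_))
            · exact he1.trans (mul_le_mul' le_rfl h3)
            · exact he2.trans (mul_le_mul' le_rfl h3)
        _ = _ := by
            push_cast
            ring
    · refine ⟨0, fun hr1 k hk hk1 => ?_⟩
      have hzero : (PM μ ν).restrict (Ty μ n k r.1 ×ˢ Ty ν n k r.2) = 0 := by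
        rw [Finset.mem_product] at hr1
        have hkμ : k ≥ kμ := le_trans (le_trans (le_max_left _ _) (le_max_left _ _)) hk
        have hkν : k ≥ kν := le_trans (le_trans (le_max_right _ _) (le_max_left _ _)) hk
        by_cases h1 : (Ty μ n k r.1).Nonempty
        · by_cases h2 : (Ty ν n k r.2).Nonempty
          · exact absurd ⟨Finset.mem_product.2 hr1, hTCμ k hkμ _ hr1.1 h1,
              hTCν k hkν _ hr1.2 h2⟩ hr
          · rw [not_nonempty_iff_eq_empty.1 h2, Set.prod_empty, Measure.restrict_empty]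
        · rw [not_nonempty_iff_eq_empty.1 h1, Set.empty_prod, Measure.restrict_empty]
      rw [hzero]
      refine (TelG_mass M n k hDs (0 : Measure (Ed d × Ed d))).trans ?_
      simp
  choose Kp hKp using hpair
  refine ⟨M, n, by omega, hn1, c, hc, ?_⟩
  set W : ℝ≥0 := Real.toNNReal (d₀⁻¹ ^ (d - 1)) with hW
  set KT : ℝ≥0 := 2 * (2:ℝ≥0) ^ M * W with hKT
  have hmassT : ∀ (k : ℕ) (S : Set (Ed d × Ed d)), MeasurableSet S →
      TelG M n k ((PM μ ν).restrict S) Ds ≤ KT * (μ.prod ν) S := by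
    intro k S hS
    refine (TelG_mass M n k hDs _).trans ?_
    rw [Measure.restrict_apply_univ]
    have e : (KT : ℝ≥0∞) = ((2 * (2:ℝ≥0) ^ M : ℝ≥0) : ℝ≥0∞) * ENNReal.ofReal (d₀⁻¹ ^ (d - 1)) := by
      rw [hKT, ENNReal.coe_mul]
      rfl
    rw [e, mul_assoc]
    exact mul_le_mul' le_rfl (PM_le hStd S hS)
  refine bound_all (K₁ := (∑ r ∈ 𝒯μ ×ˢ 𝒯ν, Kp r) + KT * (Kμ + Kν)) (K₂ := KT)
    (k₀ := kk) hc ?_ ?_
  · intro k hk hk1
    have hδ := Typ.del_pos k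
    have hδ1 := Typ.del_le_one k
    set S : (ℕ → ℕ) × (ℕ → ℕ) → Set (Ed d × Ed d) := fun r => Ty μ n k r.1 ×ˢ Ty ν n k r.2 with hS
    have hSm : ∀ r, MeasurableSet (S r) := fun r => (hmeasμ k r.1).prod (hmeasν k r.2)
    have hSd : ∀ r ∈ 𝒯μ ×ˢ 𝒯ν, ∀ r' ∈ 𝒯μ ×ˢ 𝒯ν, r ≠ r' → Disjoint (S r) (S r') := by
      intro r hr r' hr' hne
      rw [Finset.mem_product] at hr hr'
      rw [hS, Set.disjoint_prod]
      by_cases h1 : r.1 = r'.1
      · right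
        have h2 : r.2 ≠ r'.2 := fun h => hne (Prod.ext h1 h)
        exact hdisν k hk1 _ _ (hsepν _ hr.2 _ hr'.2 h2)
      · left
        exact hdisμ k hk1 _ _ (hsepμ _ hr.1 _ hr'.1 h1)
    refine (TelG_split M n k hDs (PM μ ν) (𝒯μ ×ˢ 𝒯ν) S hSm hSd).trans ?_
    have h1 : ∑ r ∈ 𝒯μ ×ˢ 𝒯ν, TelG M n k ((PM μ ν).restrict (S r)) Ds ≤
        (∑ r ∈ 𝒯μ ×ˢ 𝒯ν, (Kp r : ℝ≥0∞)) * ENNReal.ofReal (del k ^ c) := by
      rw [Finset.sum_mul]
      exact Finset.sum_le_sum fun r hr => hKp r hr k hk hk1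
    have h2 : TelG M n k ((PM μ ν).restrict (⋃ r ∈ 𝒯μ ×ˢ 𝒯ν, S r)ᶜ) Ds ≤
        KT * ((Kμ + Kν) * ENNReal.ofReal (del k ^ c)) := by
      refine (hmassT k _ ((𝒯μ ×ˢ 𝒯ν).measurableSet_biUnion fun r _ => hSm r).compl).trans ?_
      gcongr
      have hsub : (⋃ r ∈ 𝒯μ ×ˢ 𝒯ν, S r)ᶜ ⊆
          ((⋃ p ∈ 𝒯μ, Ty μ n k p)ᶜ ×ˢ univ) ∪ (univ ×ˢ (⋃ p ∈ 𝒯ν, Ty ν n k p)ᶜ) := by
        intro z hz
        by_contra hcon
        rw [Set.mem_union, not_or] at hcon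
        simp only [Set.mem_prod, Set.mem_univ, and_true, true_and, Set.mem_compl_iff, not_not,
          Set.mem_iUnion, exists_prop] at hcon
        obtain ⟨⟨p, hp, hzp⟩, ⟨q, hq, hzq⟩⟩ := hcon
        apply hz
        simp only [Set.mem_iUnion, exists_prop]
        exact ⟨(p, q), Finset.mem_product.2 ⟨hp, hq⟩, hzp, hzq⟩
      have hdc : ENNReal.ofReal (del k) ≤ ENNReal.ofReal (del k ^ c) := by
        apply ENNReal.ofReal_le_ofReal
        conv_lhs => rw [← Real.rpow_one (del k)]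
        exact Real.rpow_le_rpow_of_exponent_ge hδ hδ1 (min_le_right _ _)
      calc (μ.prod ν) (⋃ r ∈ 𝒯μ ×ˢ 𝒯ν, S r)ᶜ
          ≤ (μ.prod ν) ((⋃ p ∈ 𝒯μ, Ty μ n k p)ᶜ ×ˢ univ) +
            (μ.prod ν) (univ ×ˢ (⋃ p ∈ 𝒯ν, Ty ν n k p)ᶜ) :=
              (measure_mono hsub).trans (measure_union_le _ _)
        _ = μ (⋃ p ∈ 𝒯μ, Ty μ n k p)ᶜ * ν univ + μ univ * ν (⋃ p ∈ 𝒯ν, Ty ν n k p)ᶜ := by
            rw [Measure.prod_prod, Measure.prod_prod]
        _ ≤ (Kμ * ENNReal.ofReal (del k)) * 1 + 1 * (Kν * ENNReal.ofReal (del k)) := by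
            gcongr
            · exact hcovμ k hk1
            · exact hStd.massν
            · exact hStd.massμ
            · exact hcovν k hk1
        _ = (Kμ + Kν) * ENNReal.ofReal (del k) := by ring
        _ ≤ _ := by gcongr
    refine (add_le_add h1 h2).trans (le_of_eq ?_)
    push_cast
    ring
  · intro k
    have := hmassT k univ MeasurableSet.univ
    rw [Measure.restrict_univ] at this
    exact this.trans ((mul_le_mul_right (prod_univ_le hStd) _).trans (le_of_eq (mul_one _)))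

/-- the single scale bound in odd dimension -/
theorem main_odd {q : ℕ} (hq : 1 ≤ q) {s : ℝ} (hs : (q:ℝ) + 1 / 2 < s)
    (μ ν : Measure (Ed (2 * q + 1))) [IsFiniteMeasure μ] [IsFiniteMeasure ν] (C : ℝ≥0) (D d₀ : ℝ)
    (hStd : Std μ ν s C D d₀) {η : ℝ} (hη : 0 < η) {Kη : ℝ≥0} (hμN : NCU q η Kη μ)
    (hνN : NCU q η Kη ν) :
    ∃ M n : ℕ, 1 ≤ M ∧ 1 ≤ n ∧ ∃ c : ℝ, 0 < c ∧ ∃ K : ℝ≥0, ∀ k : ℕ, 1 ≤ k →
      TelG M n k (PM μ ν) FinD.Ds ≤ K * ENNReal.ofReal (del k ^ c) := by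
  have hq0 : (1:ℝ) ≤ q := by exact_mod_cast hq
  have hcast : ((2 * q + 1 : ℕ) : ℝ) = 2 * (q:ℝ) + 1 := by push_cast; ring
  -- base
  set s' := min s (q + 1) with hs'
  have hs1 : (q:ℝ) + 1 / 2 < s' := lt_min hs (by linarith)
  have hs2 : s' ≤ q + 1 := min_le_right _ _
  have hbase : ThinF ((s' + q) / 2) μ ν :=
    thinF_of (H881.stUS _ q s' _ (by linarith) (H881.stPF _ q s' hs1 hs2)) μ ν s C D d₀
      (by linarith) (min_le_left _ _) hStd hη hμN hνN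
  have hthin := thinF_of_bootF hq (stBootF_of (OS.FA.stBoot1 _)) hStd
    (κ₀ := (s' + q) / 2) (by linarith) hbase
  have hmin : min s ((q:ℝ) + 1 / 2) = q + 1 / 2 := min_eq_right hs.le
  rw [hmin] at hthin
  exact main_of_F (κ := (q:ℝ) + 1 / 2) (by linarith) (by rw [hcast]; linarith)
    (stTopUC (stBadDir _ _)) (stRules_ofNF (stNF _ _)) (stGame _) (by rw [hcast]; linarith)
    μ ν C D d₀ hStd hthin

/-- the rate of a pair of measures -/
theorem rateO {q : ℕ} (hq : 1 ≤ q) {s : ℝ} (hs : (q:ℝ) + 1 / 2 < s)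
    (μ ν : Measure (Ed (2 * q + 1))) [IsFiniteMeasure μ] [IsFiniteMeasure ν] (C : ℝ≥0) (D d₀ : ℝ)
    (hStd : Std μ ν s C D d₀) {η : ℝ} (hη : 0 < η) {Kη : ℝ≥0} (hμN : NCU q η Kη μ)
    (hνN : NCU q η Kη ν) :
    ∃ (L : ℕ) (B₁ B₂ : ℝ), 0 ≤ B₁ ∧ 0 ≤ B₂ ∧ ∀ K : Set ℝ, IsCompact K → ∀ k : ℕ, 1 ≤ k →
      (PM μ ν) (FinD.Ds ⁻¹' K) ≤ ENNReal.ofReal (B₁ * 2 ^ (L * k)) * volume K +
        ENNReal.ofReal (B₂ * (2:ℝ)⁻¹ ^ (3 * k)) := by
  have hfin : IsFiniteMeasure (PM μ ν) := FinD.isFinite_PM hStd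
  obtain ⟨M, n, hM, hn, c, hc, B, hB⟩ := main_odd hq hs μ ν C D d₀ hStd hη hμN hνN
  obtain ⟨N, hN⟩ := exists_nat_gt (3 / c)
  have hN0 : 0 < N := by
    rcases Nat.eq_zero_or_pos N with h | h
    · exfalso
      rw [h, Nat.cast_zero] at hN
      have : 0 < 3 / c := by positivity
      linarith
    · exact h
  have hcN : 3 ≤ c * N := by
    have := (div_lt_iff₀ hc).1 hN
    linarith
  refine ⟨n * N, 2 ^ M * (PM μ ν).real univ, B * (SB c).toReal,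
    mul_nonneg (by positivity) measureReal_nonneg,
    mul_nonneg (NNReal.coe_nonneg _) ENNReal.toReal_nonneg, ?_⟩
  intro K hK k hk
  have hNk : 1 ≤ N * k := Nat.mul_pos hN0 hk
  have h := dens (PM μ ν) (FinD.continuous_Ds.measurable) hM hn hB hK hNk
  refine h.trans (add_le_add ?_ ?_)
  · refine mul_le_mul' (ENNReal.ofReal_le_ofReal (le_of_eq ?_)) le_rfl
    rw [show n * N * k = n * (N * k) by ring]
    ring
  · have e1 : (SB c) = ENNReal.ofReal (SB c).toReal := (ENNReal.ofReal_toReal (SB_ne_top hc)).symm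
    have e2 : (B : ℝ≥0∞) = ENNReal.ofReal (B:ℝ) := (ENNReal.ofReal_coe_nnreal).symm
    rw [e1, e2, ENNReal.toReal_ofReal ENNReal.toReal_nonneg,
      ← ENNReal.ofReal_mul (NNReal.coe_nonneg _),
      ← ENNReal.ofReal_mul (mul_nonneg (NNReal.coe_nonneg _) ENNReal.toReal_nonneg)]
    refine ENNReal.ofReal_le_ofReal (mul_le_mul_of_nonneg_left ?_
      (mul_nonneg (NNReal.coe_nonneg _) ENNReal.toReal_nonneg))
    unfold del
    rw [← Real.rpow_natCast, ← Real.rpow_natCast, ← Real.rpow_mul (by norm_num)]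
    refine Real.rpow_le_rpow_of_exponent_ge (by norm_num) (by norm_num) ?_
    push_cast
    have : (0:ℝ) ≤ k := Nat.cast_nonneg k
    nlinarith

/-- admissible pairs -/
structure AdmO (q : ℕ) (η : ℝ) (E₁ E₂ : Set (Ed d)) (s : ℝ) (m : ℕ) (μ ν : Measure (Ed d)) :
    Prop where
  adm : H978b.Adm E₁ E₂ s m μ ν
  nμ : NCU q η (2 ^ m) μ
  nν : NCU q η (2 ^ m) ν

section sup

variable {m : ℕ → ℕ} {μ : ℕ → Measure (Ed d)}

theorem sup_ncu {q : ℕ} {η : ℝ} (h : ∀ j, NCU q η (2 ^ m j) (μ j)) :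
    NCU q η 1 (H978b.sup (fun j => j + 1 + m j) μ) := by
  intro ρ hρ hρ1 W hW
  have h0 : H978b.sup (fun j => j + 1 + m j) μ (OD.Nb ρ (W : Set (Ed d))) =
      ∑' j, (2:ℝ≥0∞)⁻¹ ^ (j + 1 + m j) * μ j (OD.Nb ρ (W : Set (Ed d))) := by
    unfold H978b.sup
    rw [Measure.sum_apply_of_countable]
    rfl
  rw [h0]
  calc ∑' j, (2:ℝ≥0∞)⁻¹ ^ (j + 1 + m j) * μ j (OD.Nb ρ (W : Set (Ed d)))
      ≤ ∑' j, (2:ℝ≥0∞)⁻¹ ^ (j + 1) * ENNReal.ofReal (ρ ^ η) := by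
        refine ENNReal.tsum_le_tsum fun j => ?_
        calc (2:ℝ≥0∞)⁻¹ ^ (j + 1 + m j) * μ j (OD.Nb ρ (W : Set (Ed d)))
            ≤ (2:ℝ≥0∞)⁻¹ ^ (j + 1 + m j) * (2 ^ m j * ENNReal.ofReal (ρ ^ η)) := by
              refine mul_le_mul' le_rfl ((h j ρ hρ hρ1 W hW).trans (le_of_eq ?_))
              push_cast
              rfl
          _ = _ := by rw [← mul_assoc, two_inv_pow_mul]
    _ = _ := by
        rw [ENNReal.tsum_mul_right, tsum_half]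
        simp

end sup

/-- **uniform Falconer theorem in odd dimension** -/
theorem unifO {q : ℕ} (hq : 1 ≤ q) {s : ℝ} (hs : (q:ℝ) + 1 / 2 < s) {η : ℝ} (hη : 0 < η)
    {D d₀ : ℝ} (hD : 1 ≤ D) (hd0 : 0 < d₀)
    (hd1 : d₀ ≤ 1) {E₁ E₂ : Set (Ed (2 * q + 1))} (hE₁ : MeasurableSet E₁)
    (hE₂ : MeasurableSet E₂) (h1 : E₁ ⊆ closedBall 0 D) (h2 : E₂ ⊆ closedBall 0 D)
    (hsep : ∀ x ∈ E₁, ∀ y ∈ E₂, d₀ ≤ dist x y) :
    ∃ A : ℕ, ∀ (m : ℕ) (μ ν : Measure (Ed (2 * q + 1))), AdmO q η E₁ E₂ s m μ ν →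
      ∀ K : Set ℝ, IsCompact K → (∀ᵐ z ∂(μ.prod ν), dist z.1 z.2 ∈ K) →
      ENNReal.ofReal ((2:ℝ)⁻¹ ^ ((A + 1 + m) * (A + 1))) ≤ volume K := by
  by_contra hcon
  push Not at hcon
  choose m μ ν hA' K hK hae hvol using hcon
  have hA := fun j => (hA' j).adm
  set M := H978b.sup (fun j => j + 1 + m j) μ with hM
  set N := H978b.sup (fun j => j + 1 + m j) ν with hN
  have hM1 : M univ ≤ 1 := H978b.sup_univ_le fun j => (hA j).pμ
  have hN1 : N univ ≤ 1 := H978b.sup_univ_le fun j => (hA j).pν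
  have hfM : IsFiniteMeasure M := ⟨hM1.trans_lt ENNReal.one_lt_top⟩
  have hfN : IsFiniteMeasure N := ⟨hN1.trans_lt ENNReal.one_lt_top⟩
  have hME : M E₁ᶜ = 0 := H978b.sup_null hE₁.compl fun j => (hA j).sμ
  have hNE : N E₂ᶜ = 0 := H978b.sup_null hE₂.compl fun j => (hA j).sν
  have hMn : NCU q η 1 M := sup_ncu fun j => (hA' j).nμ
  have hNn : NCU q η 1 N := sup_ncu fun j => (hA' j).nν
  have hStd : Std M N s 1 D d₀ :=
    { frμ := H978b.sup_frost fun j => (hA j).fμ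
      frν := H978b.sup_frost fun j => (hA j).fν
      D1 := hD
      suppμ := measure_mono_null (compl_subset_compl.2 h1) hME
      suppν := measure_mono_null (compl_subset_compl.2 h2) hNE
      d0 := hd0
      d1 := hd1
      massμ := hM1
      massν := hN1
      sep := ⟨E₁, E₂, hE₁, hE₂, hME, hNE, hsep⟩ }
  obtain ⟨L, B₁, B₂, hB₁, hB₂, hR⟩ := rateO hq hs M N 1 D d₀ hStd hη hMn hNn
  set c₁ : ℝ := (2 * D)⁻¹ ^ (2 * q + 1 - 1) with hc₁
  have hc₁0 : 0 < c₁ := by positivity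
  -- the inequality at each index
  have key : ∀ j, L + 2 ≤ j → c₁ ≤ (B₁ + B₂) * (2:ℝ)⁻¹ ^ j := by
    intro j hj
    set e := j + 1 + m j with he
    have he1 : 1 ≤ e := by omega
    have hfμ : IsFiniteMeasure (μ j) := ⟨by rw [(hA j).pμ]; exact ENNReal.one_lt_top⟩
    have hfν : IsFiniteMeasure (ν j) := ⟨by rw [(hA j).pν]; exact ENNReal.one_lt_top⟩
    have hSm : MeasurableSet (FinD.Ds (d := 2 * q + 1) ⁻¹' K j) :=
      FinD.continuous_Ds.measurable (hK j).isClosed.measurableSet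
    have hone : ((μ j).prod (ν j)) (FinD.Ds ⁻¹' K j) = 1 := by
      have h3 : ((μ j).prod (ν j)) (FinD.Ds ⁻¹' K j)ᶜ = 0 := by
        have := hae j
        rw [ae_iff] at this
        exact this
      have h4 : ((μ j).prod (ν j)) univ = 1 := by
        rw [← univ_prod_univ, Measure.prod_prod, (hA j).pμ, (hA j).pν, one_mul]
      rw [← h4, ← measure_add_measure_compl hSm, h3, add_zero]
    set w : ℝ≥0∞ := (2:ℝ≥0∞)⁻¹ ^ e with hw
    have hlow : ENNReal.ofReal c₁ * (w * w) ≤ PM M N (FinD.Ds ⁻¹' K j) := by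
      refine le_trans (mul_le_mul' le_rfl ?_) (PM_ge hStd _ hSm)
      calc w * w = w * (w * ((μ j).prod (ν j)) (FinD.Ds ⁻¹' K j)) := by rw [hone, mul_one]
        _ = ((w • μ j).prod (w • ν j)) (FinD.Ds ⁻¹' K j) := by
            rw [Measure.prod_smul_left, Measure.prod_smul_right]
            simp only [Measure.smul_apply, smul_eq_mul]
        _ ≤ (M.prod N) (FinD.Ds ⁻¹' K j) :=
            Measure.prod_mono (H978b.le_sup j) (H978b.le_sup j) _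
    have hup := hR (K j) (hK j) e he1
    have h5 : ENNReal.ofReal c₁ * (w * w) ≤
        ENNReal.ofReal (B₁ * 2 ^ (L * e)) * ENNReal.ofReal ((2:ℝ)⁻¹ ^ (e * (j + 1))) +
          ENNReal.ofReal (B₂ * (2:ℝ)⁻¹ ^ (3 * e)) :=
      hlow.trans (hup.trans (add_le_add (mul_le_mul' le_rfl (hvol j).le) le_rfl))
    have hw' : w = ENNReal.ofReal ((2:ℝ)⁻¹ ^ e) := by
      rw [hw, ENNReal.ofReal_pow (by norm_num), ENNReal.ofReal_inv_of_pos (by norm_num),
        ENNReal.ofReal_ofNat]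
    rw [hw', ← ENNReal.ofReal_mul (by positivity), ← ENNReal.ofReal_mul hc₁0.le,
      ← ENNReal.ofReal_mul (by positivity), ← ENNReal.ofReal_add (by positivity) (by positivity),
      ENNReal.ofReal_le_ofReal_iff (by positivity)] at h5
    -- real arithmetic
    set x : ℝ := (2:ℝ)⁻¹ ^ e with hx
    have hx0 : 0 < x := by positivity
    have hxj : x ≤ (2:ℝ)⁻¹ ^ j := pow_le_pow_of_le_one (by norm_num) (by norm_num) (by omega)
    have e1 : (2:ℝ)⁻¹ ^ (3 * e) = x ^ 3 := by rw [hx, ← pow_mul, mul_comm]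
    have e2 : (2:ℝ) ^ (L * e) * (2:ℝ)⁻¹ ^ (e * (j + 1)) ≤ x ^ 3 := by
      have h6 : (2:ℝ) ^ (L * e) * (2:ℝ)⁻¹ ^ (L * e) = 1 := by
        rw [← mul_pow]; norm_num
      have h7 : (2:ℝ)⁻¹ ^ (e * (j + 1)) ≤ (2:ℝ)⁻¹ ^ (L * e + 3 * e) := by
        refine pow_le_pow_of_le_one (by norm_num) (by norm_num) ?_
        have : (L + 3) * e ≤ (j + 1) * e := Nat.mul_le_mul_right _ (by omega)
        nlinarith
      calc (2:ℝ) ^ (L * e) * (2:ℝ)⁻¹ ^ (e * (j + 1))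
          ≤ (2:ℝ) ^ (L * e) * (2:ℝ)⁻¹ ^ (L * e + 3 * e) :=
            mul_le_mul_of_nonneg_left h7 (by positivity)
        _ = ((2:ℝ) ^ (L * e) * (2:ℝ)⁻¹ ^ (L * e)) * (2:ℝ)⁻¹ ^ (3 * e) := by
            rw [pow_add]; ring
        _ = x ^ 3 := by rw [h6, one_mul, e1]
    have h8 : c₁ * (x * x) ≤ ((B₁ + B₂) * x) * (x * x) := by
      calc c₁ * (x * x) ≤ B₁ * 2 ^ (L * e) * (2:ℝ)⁻¹ ^ (e * (j + 1)) +
            B₂ * (2:ℝ)⁻¹ ^ (3 * e) := h5
        _ = B₁ * (2 ^ (L * e) * (2:ℝ)⁻¹ ^ (e * (j + 1))) + B₂ * x ^ 3 := by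
            rw [e1]; ring
        _ ≤ B₁ * x ^ 3 + B₂ * x ^ 3 := by
            gcongr
        _ = _ := by ring
    have h9 : c₁ ≤ (B₁ + B₂) * x := le_of_mul_le_mul_right h8 (by positivity)
    exact h9.trans (mul_le_mul_of_nonneg_left hxj (by positivity))
  have hlim : Tendsto (fun j : ℕ => (B₁ + B₂) * (2:ℝ)⁻¹ ^ j) atTop (𝓝 0) := by
    have := tendsto_pow_atTop_nhds_zero_of_lt_one (r := (2:ℝ)⁻¹) (by norm_num) (by norm_num)
    simpa using this.const_mul (B₁ + B₂)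
  have hle : c₁ ≤ 0 := ge_of_tendsto hlim (by
    filter_upwards [eventually_ge_atTop (L + 2)] with j hj using key j hj)
  linarith

end Vale.Agent.P054.H978o
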