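import Vale.Agent.P054.H978o.Two

/-! Odd dimension: the one-scale inequality for arbitrary sets (helper978). -/

namespace Vale.Agent.P054.H978o

open Metric Set Module
open Vale.Agent.P118.FD
open Vale.Agent.P054.H978b

/-- choice of the exponent -/
theorem expoO {q ε : ℝ} (hq0 : 1 ≤ q) (hε : 0 < ε) :
    ∃ s : ℝ, q + 1 < s ∧ s < 2 * q + 1 ∧
      (1 / (2 * q + 1 - s) - 1 / q) + (1 / (q + 1) - 1 / s) ≤ ε := by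
  obtain ⟨θ, hθ⟩ : ∃ θ : ℝ, θ = min (1 / 2) (ε / 3) := ⟨_, rfl⟩
  have hθ0 : 0 < θ := by rw [hθ]; exact lt_min (by norm_num) (by linarith)
  have hθ1 : θ ≤ 1 / 2 := by rw [hθ]; exact min_le_left _ _
  have hθ2 : θ ≤ ε / 3 := by rw [hθ]; exact min_le_right _ _
  refine ⟨q + 1 + θ, by linarith, by linarith, ?_⟩
  have hq : 0 < q := by linarith
  have e1 : 2 * q + 1 - (q + 1 + θ) = q - θ := by ring
  have h1 : 0 < q - θ := by linarith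
  have h2 : 1 / (q - θ) - 1 / q ≤ 2 * θ := by
    rw [div_sub_div _ _ h1.ne' hq.ne', div_le_iff₀ (by positivity)]
    have h3 : 1 / 2 ≤ (q - θ) * q := by nlinarith
    nlinarith [mul_le_mul_of_nonneg_left h3 hθ0.le]
  have h4 : 1 / (q + 1) - 1 / (q + 1 + θ) ≤ θ := by
    rw [div_sub_div _ _ (by positivity) (by positivity), div_le_iff₀ (by positivity)]
    have h5 : 1 ≤ (q + 1) * (q + 1 + θ) := by nlinarith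
    nlinarith [mul_le_mul_of_nonneg_left h5 hθ0.le]
  rw [e1]
  linarith

/-- comparison of powers -/
theorem cmpO {n u z κ₁ κ₂ a b ε : ℝ} (hn1 : 1 ≤ n) (hu0 : 0 < u) (hun : u ≤ n) (hz0 : 0 < z)
    (hz : n⁻¹ ≤ z) (h1 : κ₁ ≤ a) (h2 : b ≤ κ₂) (h3 : (κ₂ - b) + (a - κ₁) ≤ ε) :
    n ^ (-ε) * (z ^ b * u ^ a) ≤ z ^ κ₂ * u ^ κ₁ := by
  have hn0 : 0 < n := by linarith
  have e1 : n ^ (-((κ₂ - b) + (a - κ₁))) = n ^ (-(κ₂ - b)) * n ^ (-(a - κ₁)) := by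
    rw [← Real.rpow_add hn0]
    congr 1
    ring
  have h4 : n ^ (-(κ₂ - b)) * z ^ b ≤ z ^ κ₂ := by
    have h5 : z ^ κ₂ = z ^ (κ₂ - b) * z ^ b := by
      rw [← Real.rpow_add hz0]
      congr 1
      ring
    have h6 : n ^ (-(κ₂ - b)) ≤ z ^ (κ₂ - b) := by
      rw [Real.rpow_neg hn0.le, ← Real.inv_rpow hn0.le]
      exact Real.rpow_le_rpow (by positivity) hz (by linarith)
    rw [h5]
    exact mul_le_mul_of_nonneg_right h6 (by positivity)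
  have h7 : n ^ (-(a - κ₁)) * u ^ a ≤ u ^ κ₁ := pow_cmp2 hn0 hu0 hun h1
  calc n ^ (-ε) * (z ^ b * u ^ a) ≤ n ^ (-((κ₂ - b) + (a - κ₁))) * (z ^ b * u ^ a) := by
        refine mul_le_mul_of_nonneg_right ?_ (by positivity)
        exact Real.rpow_le_rpow_of_exponent_le hn1 (by linarith)
    _ = (n ^ (-(κ₂ - b)) * z ^ b) * (n ^ (-(a - κ₁)) * u ^ a) := by
        rw [e1]
        ring
    _ ≤ _ := mul_le_mul h4 h7 (by positivity) (by positivity)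

/-- the target as a power -/
theorem targetO {q : ℝ} (hq : 1 ≤ q) {u v γ : ℝ} (hu : 0 < u) (hv : 0 < v)
    (hγ : γ = (q + 1) / (q + 1 / 2)) :
    ((u * v ^ (2 * q + 1)) ^ (1 / q) * u ^ (1 / (q + 1))) ^ γ =
      u ^ (2 / q) * v ^ (2 * (q + 1) / q) := by
  have hq0 : 0 < q := by linarith
  rw [Real.mul_rpow hu.le (by positivity), Real.mul_rpow (by positivity) (by positivity),
    Real.mul_rpow (by positivity) (by positivity), ← Real.rpow_mul hu.le, ← Real.rpow_mul hu.le,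
    ← Real.rpow_mul hv.le, ← Real.rpow_mul hv.le]
  have e1 : 1 / q * γ + 1 / (q + 1) * γ = 2 / q := by
    rw [hγ]
    field_simp
    ring
  have e2 : (2 * q + 1) * (1 / q) * γ = 2 * (q + 1) / q := by
    rw [hγ]
    field_simp
  rw [e2, mul_right_comm, ← Real.rpow_add hu, e1]

/-- lower bound of `u v ^ d` -/
theorem z_ge {q : ℕ} (hq : (1:ℝ) ≤ q) {n u v : ℝ} (hu : 0 < u) (hun : u ≤ n) (hv : 0 < v)
    (hv1 : v ≤ 1) (hX : 1 ≤ u ^ (2 / (q:ℝ)) * v ^ (2 * ((q:ℝ) + 1) / q)) :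
    n⁻¹ ≤ u * v ^ (2 * q + 1) := by
  have hq0 : (0:ℝ) < q := by linarith
  have h27 : (u ^ (2 / (q:ℝ)) * v ^ (2 * ((q:ℝ) + 1) / q)) ^ (q:ℝ) = u ^ 2 * v ^ (2 * q + 2) := by
    rw [Real.mul_rpow (by positivity) (by positivity), ← Real.rpow_mul hu.le,
      ← Real.rpow_mul hv.le, div_mul_cancel₀ _ hq0.ne', div_mul_cancel₀ _ hq0.ne',
      Real.rpow_ofNat, ← Real.rpow_natCast v (2 * q + 2)]
    congr 2
    push_cast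
    ring
  have h28 : 1 ≤ u ^ 2 * v ^ (2 * q + 2) := by
    rw [← h27]
    exact Real.one_le_rpow hX hq0.le
  have h29 : n⁻¹ ≤ u⁻¹ := inv_anti₀ hu hun
  refine h29.trans ?_
  rw [inv_le_iff_one_le_mul₀ hu]
  calc (1:ℝ) ≤ u ^ 2 * v ^ (2 * q + 2) := h28
    _ = (u ^ 2 * v ^ (2 * q + 1)) * v := by ring
    _ ≤ (u ^ 2 * v ^ (2 * q + 1)) * 1 := mul_le_mul_of_nonneg_left hv1 (by positivity)
    _ = _ := by ring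

/-- the selected ball: distances -/
theorem sel_distO {D : ℕ} {s γ : ℝ} (hs0 : 0 < s) {A : ℕ} {c : ℝ}
    (hmain : ∀ (P : Finset (Ed D)) (x₀ : Ed D) (R δ K : ℝ),
      2 ≤ P.card → 0 < R → 0 < δ → δ ≤ 1 → 1 ≤ K → (∀ p ∈ P, dist p x₀ ≤ R) →
      (∀ x, ∀ r : ℝ, δ * R ≤ r → r ≤ R → (cnt P x r : ℝ) ≤ K * P.card * (r / R) ^ s) →
      ∃ T : Finset ℝ, (∀ t ∈ T, ∃ p ∈ P, ∃ p' ∈ P, p ≠ p' ∧ dist p p' = t) ∧
        (∀ t ∈ T, ∀ t' ∈ T, t ≠ t' → δ ^ γ * R < |t - t'|) ∧ c / (K ^ A * δ ^ γ) ≤ T.card)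
    (P : Finset (Ed D)) (x₀ : Ed D) {R N ρ₀ : ℝ} (hR : 0 < R) (hρ₀0 : 0 < ρ₀)
    (hρ₀1 : ρ₀ ≤ 1) (hP : 0 < P.card) (hPR : ∀ p ∈ P, dist p x₀ ≤ R) (hN1 : 1 ≤ N)
    (hρ₀N : (P.card : ℝ) * ρ₀ ^ s = 4 * N) :
    ∃ (x : Ed D) (ρ : ℝ), 0 < ρ ∧ (P.card : ℝ) * ρ ^ s ≤ 2 * cnt P x (ρ * R) ∧
      2 * N ≤ cnt P x (ρ * R) ∧ c / 2 ^ A * (ρ * ρ₀⁻¹) ^ γ ≤ ((DS P).ncard : ℝ) := by
  classical
  obtain ⟨x, ρ, h1, h2, h3, h4⟩ := exists_sel P x₀ hρ₀0 hρ₀1 hs0 hP hPR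
  have hρ0 : 0 < ρ := hρ₀0.trans_le h1
  have hPc : (0:ℝ) ≤ P.card := Nat.cast_nonneg _
  have h5 : 2 * N ≤ cnt P x (ρ * R) := by
    have h6 : ρ₀ ^ s ≤ ρ ^ s := Real.rpow_le_rpow hρ₀0.le h1 hs0.le
    have h8 : (P.card : ℝ) * ρ₀ ^ s ≤ P.card * ρ ^ s := mul_le_mul_of_nonneg_left h6 hPc
    linarith
  refine ⟨x, ρ, hρ0, h3, h5, ?_⟩
  set P' := P.filter fun p => dist p x ≤ ρ * R with hP'
  have hP'c : cnt P x (ρ * R) = P'.card := rfl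
  rw [hP'c] at h3 h4 h5
  have hP'2 : 2 ≤ P'.card := by
    have : (2:ℝ) ≤ P'.card := by linarith
    exact_mod_cast this
  have hδ1 : ρ₀ / ρ ≤ 1 := (div_le_one hρ0).2 h1
  obtain ⟨T, hT, _, hTc⟩ := hmain P' x (ρ * R) (ρ₀ / ρ) 2 hP'2 (by positivity) (by positivity) hδ1
    (by norm_num) (fun p hp => (Finset.mem_filter.1 hp).2) (by
      intro y r' hr1 hr2
      have h17 : ρ₀ / ρ * (ρ * R) = ρ₀ * R := by field_simp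
      rw [h17] at hr1
      have h18 : ρ₀ ≤ r' / R := by rw [le_div_iff₀ hR]; exact hr1
      have h19 : r' / R ≤ 1 := by
        rw [div_le_one hR]
        exact hr2.trans (mul_le_of_le_one_left hR.le h2)
      have h20 := h4 y (r' / R) h18 h19
      rw [div_mul_cancel₀ _ hR.ne'] at h20
      have h21 : r' / R / ρ = r' / (ρ * R) := by
        rw [div_div, mul_comm R ρ]
      rw [h21] at h20
      exact le_trans (Nat.cast_le.2 (cnt_le_of_sub (Finset.filter_subset _ _) y r')) h20)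
  have h22 : (T.card : ℝ) ≤ ((DS P).ncard : ℝ) := by
    have : T.card ≤ (DS P).ncard :=
      card_le_DS fun t ht => DS_mono (Finset.filter_subset _ _) (hT t ht)
    exact_mod_cast this
  have h23 : c / (2 ^ A * (ρ₀ / ρ) ^ γ) = c / 2 ^ A * (ρ * ρ₀⁻¹) ^ γ := by
    have h24 : ρ₀ / ρ = (ρ * ρ₀⁻¹)⁻¹ := by field_simp
    rw [h24, Real.inv_rpow (by positivity)]
    field_simp
  rw [← h23]
  exact hTc.trans h22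

/-- size of `u` -/
theorem u_ge {q : ℕ} (hq : (1:ℝ) ≤ q) {u v e : ℝ} (hu0 : 0 < u) (hv0 : 0 < v) (hv1 : v ≤ 1)
    (he : 0 ≤ e) (hbig : 16 < u ^ (2 / (q:ℝ)) * v ^ e) : 4 < u := by
  have hu16 : 16 < u ^ (2 / (q:ℝ)) :=
    hbig.trans_le (mul_le_of_le_one_right (by positivity) (Real.rpow_le_one hv0.le hv1 he))
  by_contra hcon
  push Not at hcon
  have h1 : u ^ (2 / (q:ℝ)) ≤ 16 := by
    calc u ^ (2 / (q:ℝ)) ≤ 4 ^ (2 / (q:ℝ)) := Real.rpow_le_rpow hu0.le hcon (by positivity)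
      _ ≤ 4 ^ (2:ℝ) := by
          refine Real.rpow_le_rpow_of_exponent_le (by norm_num) ?_
          rw [div_le_iff₀ (by linarith)]
          linarith
      _ = 16 := by norm_num
  linarith

/-- comparison with the target -/
theorem h39O {q : ℕ} (hq0 : (1:ℝ) ≤ q) {n u v ε γ κ₁ κ₂ : ℝ} (hn1 : 1 ≤ n)
    (hu0 : 0 < u) (hun : u ≤ n) (hv0 : 0 < v) (hv1 : v ≤ 1) (hε : 0 < ε)
    (hγ : γ = ((q:ℝ) + 1) / (q + 1 / 2)) (hγ0 : 0 < γ) (hγ2 : γ ≤ 2)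
    (hκ1q : κ₁ ≤ 1 / ((q:ℝ) + 1)) (hκ2q : 1 / (q:ℝ) ≤ κ₂)
    (hκ' : (κ₂ - 1 / (q:ℝ)) + (1 / ((q:ℝ) + 1) - κ₁) ≤ ε / 2)
    (hX1 : 1 ≤ u ^ (2 / (q:ℝ)) * v ^ (2 * ((q:ℝ) + 1) / q)) :
    n ^ (-ε) * (u ^ (2 / (q:ℝ)) * v ^ (2 * ((q:ℝ) + 1) / q)) ≤
      ((u * v ^ (2 * q + 1)) ^ κ₂ * u ^ κ₁) ^ γ := by
  have hn0 : 0 < n := by linarith
  have hDr : ((2 * q + 1 : ℕ) : ℝ) = 2 * q + 1 := by push_cast; ring
  obtain ⟨z, hz⟩ : ∃ z : ℝ, z = u * v ^ (2 * q + 1) := ⟨_, rfl⟩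
  have hz0 : 0 < z := by rw [hz]; positivity
  have hzn : n⁻¹ ≤ z := by
    rw [hz]
    exact z_ge hq0 hu0 hun hv0 hv1 hX1
  have h40 : (z ^ (1 / (q:ℝ)) * u ^ (1 / ((q:ℝ) + 1))) ^ γ =
      u ^ (2 / (q:ℝ)) * v ^ (2 * ((q:ℝ) + 1) / q) := by
    rw [← targetO hq0 hu0 hv0 hγ, ← hDr, Real.rpow_natCast, ← hz]
  rw [← hz, ← h40]
  have h38 : n ^ (-(ε / 2)) * (z ^ (1 / (q:ℝ)) * u ^ (1 / ((q:ℝ) + 1))) ≤ z ^ κ₂ * u ^ κ₁ :=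
    cmpO hn1 hu0 hun hz0 hzn hκ1q hκ2q hκ'
  have h41 : n ^ (-ε) ≤ (n ^ (-(ε / 2))) ^ γ := by
    rw [← Real.rpow_mul hn0.le]
    refine Real.rpow_le_rpow_of_exponent_le hn1 ?_
    nlinarith
  have h44 : 0 < z ^ (1 / (q:ℝ)) * u ^ (1 / ((q:ℝ) + 1)) := by positivity
  calc n ^ (-ε) * (z ^ (1 / (q:ℝ)) * u ^ (1 / ((q:ℝ) + 1))) ^ γ
      ≤ (n ^ (-(ε / 2))) ^ γ * (z ^ (1 / (q:ℝ)) * u ^ (1 / ((q:ℝ) + 1))) ^ γ :=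
        mul_le_mul_of_nonneg_right h41 (by positivity)
    _ = (n ^ (-(ε / 2)) * (z ^ (1 / (q:ℝ)) * u ^ (1 / ((q:ℝ) + 1)))) ^ γ := by
        rw [Real.mul_rpow (by positivity) h44.le]
    _ ≤ _ := Real.rpow_le_rpow (by positivity) h38 hγ0.le

/-- the last step -/
theorem last_stepO {q : ℕ} (hq0 : (1:ℝ) ≤ q) {n u v ε γ κ₁ κ₂ C ρ ρ₀ : ℝ} (hn1 : 1 ≤ n)
    (hu0 : 0 < u) (hun : u ≤ n) (hv0 : 0 < v) (hv1 : v ≤ 1) (hε : 0 < ε)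
    (hγ : γ = ((q:ℝ) + 1) / (q + 1 / 2)) (hγ0 : 0 < γ) (hγ2 : γ ≤ 2) (hC0 : 0 < C)
    (hκ1q : κ₁ ≤ 1 / ((q:ℝ) + 1)) (hκ2q : 1 / (q:ℝ) ≤ κ₂)
    (hκ' : (κ₂ - 1 / (q:ℝ)) + (1 / ((q:ℝ) + 1) - κ₁) ≤ ε / 2)
    (hX1 : 1 ≤ u ^ (2 / (q:ℝ)) * v ^ (2 * ((q:ℝ) + 1) / q)) (hρ₀ : ρ₀ = (4 / u) ^ κ₁)
    (h16 : (u * v ^ (2 * q + 1) / C) ^ κ₂ ≤ ρ) :
    (C⁻¹ ^ κ₂ * (4:ℝ)⁻¹ ^ κ₁) ^ γ *
      (n ^ (-ε) * (u ^ (2 / (q:ℝ)) * v ^ (2 * ((q:ℝ) + 1) / q))) ≤ (ρ * ρ₀⁻¹) ^ γ := by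
  have h39 := h39O hq0 hn1 hu0 hun hv0 hv1 hε hγ hγ0 hγ2 hκ1q hκ2q hκ' hX1
  obtain ⟨z, hz⟩ : ∃ z : ℝ, z = u * v ^ (2 * q + 1) := ⟨_, rfl⟩
  have hz0 : 0 < z := by rw [hz]; positivity
  rw [← hz] at h39 h16
  have hρ₀0 : 0 < ρ₀ := by rw [hρ₀]; positivity
  have h24 : ρ₀⁻¹ = u ^ κ₁ * (4:ℝ)⁻¹ ^ κ₁ := by
    rw [hρ₀, ← Real.inv_rpow (by positivity), inv_div, div_eq_mul_inv,
      Real.mul_rpow hu0.le (by norm_num)]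
  have h25 : (z / C) ^ κ₂ = z ^ κ₂ * C⁻¹ ^ κ₂ := by
    rw [div_eq_mul_inv, Real.mul_rpow (by positivity) (by positivity)]
  have h42 : (C⁻¹ ^ κ₂ * (4:ℝ)⁻¹ ^ κ₁) * (z ^ κ₂ * u ^ κ₁) ≤ ρ * ρ₀⁻¹ := by
    calc (C⁻¹ ^ κ₂ * (4:ℝ)⁻¹ ^ κ₁) * (z ^ κ₂ * u ^ κ₁)
        = (z / C) ^ κ₂ * ρ₀⁻¹ := by rw [h25, h24]; ring
      _ ≤ ρ * ρ₀⁻¹ := mul_le_mul_of_nonneg_right h16 (inv_pos.2 hρ₀0).le
  calc (C⁻¹ ^ κ₂ * (4:ℝ)⁻¹ ^ κ₁) ^ γ *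
        (n ^ (-ε) * (u ^ (2 / (q:ℝ)) * v ^ (2 * ((q:ℝ) + 1) / q)))
      ≤ (C⁻¹ ^ κ₂ * (4:ℝ)⁻¹ ^ κ₁) ^ γ * (z ^ κ₂ * u ^ κ₁) ^ γ :=
        mul_le_mul_of_nonneg_left h39 (by positivity)
    _ = ((C⁻¹ ^ κ₂ * (4:ℝ)⁻¹ ^ κ₁) * (z ^ κ₂ * u ^ κ₁)) ^ γ :=
        (Real.mul_rpow (by positivity) (by positivity)).symm
    _ ≤ _ := Real.rpow_le_rpow (by positivity) h42 hγ0.le

/-- **the one-scale inequality, odd dimension** -/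
theorem mainIIIO {q : ℕ} (hq : 1 ≤ q) {ε : ℝ} (hε : 0 < ε) :
    ∃ c : ℝ, 0 < c ∧ ∀ (P : Finset (Ed (2 * q + 1))) (x₀ : Ed (2 * q + 1)) (R r N : ℝ),
      2 ≤ P.card → 0 < r → r ≤ R → (∀ p ∈ P, dist p x₀ ≤ R) → (∀ x, (cnt P x r : ℝ) ≤ N) →
      c * (P.card : ℝ) ^ (-ε) * ((P.card : ℝ) / N) ^ (2 / (q:ℝ)) *
        (r / R) ^ (2 * ((q:ℝ) + 1) / q) ≤ ((DS P).ncard : ℝ) := by
  classical
  have hq0 : (1:ℝ) ≤ q := by exact_mod_cast hq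
  have hqp : (0:ℝ) < q := by linarith
  obtain ⟨s, hqs, hsq, hκ⟩ := expoO hq0 (half_pos hε)
  have hs0 : 0 < s := by linarith
  have hDr : ((2 * q + 1 : ℕ) : ℝ) = 2 * q + 1 := by push_cast; ring
  have hsD : 0 < ((2 * q + 1 : ℕ) : ℝ) - s := by rw [hDr]; linarith
  obtain ⟨γ, hγ⟩ : ∃ γ : ℝ, γ = ((q:ℝ) + 1) / (q + 1 / 2) := ⟨_, rfl⟩
  have hγ0 : 0 < γ := by rw [hγ]; positivity
  have hγ1 : 1 ≤ γ := by
    rw [hγ, one_le_div (by positivity)]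
    linarith
  have hγ2 : γ ≤ 2 := by
    rw [hγ, div_le_iff₀ (by positivity)]
    linarith
  have hs₁ : (q:ℝ) + 1 / 2 < s / γ := by
    rw [lt_div_iff₀ hγ0, hγ]
    have : ((q:ℝ) + 1 / 2) * (((q:ℝ) + 1) / (q + 1 / 2)) = q + 1 := by field_simp
    rw [this]
    exact hqs
  have hss : s / γ ≤ s := div_le_self hs0.le hγ1
  have hsγ : s / (s / γ) = γ := by field_simp
  obtain ⟨A, c, hc, hmain⟩ := mainG hq hqs hs₁ hss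
  rw [hsγ] at hmain
  obtain ⟨C, hC⟩ : ∃ C : ℝ, C = 2 * (2 * ((2 * q + 1 : ℕ) : ℝ) + 5) ^ (2 * q + 1) := ⟨_, rfl⟩
  have hC0 : 0 < C := by rw [hC]; positivity
  obtain ⟨κ₁, hκ₁⟩ : ∃ κ₁ : ℝ, κ₁ = 1 / s := ⟨_, rfl⟩
  obtain ⟨κ₂, hκ₂⟩ : ∃ κ₂ : ℝ, κ₂ = 1 / (((2 * q + 1 : ℕ) : ℝ) - s) := ⟨_, rfl⟩
  have hκ₁0 : 0 < κ₁ := by rw [hκ₁]; positivity
  have hκ₂0 : 0 < κ₂ := by rw [hκ₂]; positivity
  have hκ1q : κ₁ ≤ 1 / ((q:ℝ) + 1) := by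
    rw [hκ₁]
    exact one_div_le_one_div_of_le (by linarith) hqs.le
  have hκ2q : 1 / (q:ℝ) ≤ κ₂ := by
    rw [hκ₂]
    refine one_div_le_one_div_of_le hsD ?_
    rw [hDr]; linarith
  have hκ' : (κ₂ - 1 / (q:ℝ)) + (1 / ((q:ℝ) + 1) - κ₁) ≤ ε / 2 := by
    rw [hκ₁, hκ₂, hDr]; exact hκ
  obtain ⟨c₂, hc₂⟩ : ∃ c₂ : ℝ, c₂ = c / 2 ^ A * (C⁻¹ ^ κ₂ * (4:ℝ)⁻¹ ^ κ₁) ^ γ := ⟨_, rfl⟩
  have hc₂0 : 0 < c₂ := by rw [hc₂]; positivity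
  refine ⟨min (1 / 16) c₂, lt_min (by norm_num) hc₂0, ?_⟩
  intro P x₀ R r N hP hr hrR hPR hN
  have hR : 0 < R := hr.trans_le hrR
  have hn2 : (2:ℝ) ≤ P.card := by exact_mod_cast hP
  have hn0 : (0:ℝ) < P.card := by linarith
  have hn1 : (1:ℝ) ≤ P.card := by linarith
  have hDS1 : (1:ℝ) ≤ ((DS P).ncard : ℝ) := by exact_mod_cast one_le_DS hP
  have hN1 : 1 ≤ N := by
    obtain ⟨p, hp⟩ : P.Nonempty := Finset.card_pos.1 (by omega)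
    refine le_trans ?_ (hN p)
    have : 0 < cnt P p r := by
      unfold cnt
      refine Finset.card_pos.2 ⟨p, Finset.mem_filter.2 ⟨hp, ?_⟩⟩
      rw [dist_self]; exact hr.le
    exact_mod_cast this
  have hN0 : 0 < N := by linarith
  obtain ⟨u, hu⟩ : ∃ u : ℝ, u = (P.card : ℝ) / N := ⟨_, rfl⟩
  obtain ⟨v, hv⟩ : ∃ v : ℝ, v = r / R := ⟨_, rfl⟩
  have hu0 : 0 < u := by rw [hu]; positivity
  have hun : u ≤ P.card := by rw [hu]; exact div_le_self hn0.le hN1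
  have hv0 : 0 < v := by rw [hv]; positivity
  have hv1 : v ≤ 1 := by rw [hv]; exact (div_le_one hR).2 hrR
  have hnε : (P.card : ℝ) ^ (-ε) ≤ 1 := Real.rpow_le_one_of_one_le_of_nonpos hn1 (by linarith)
  rw [← hu, ← hv]
  obtain ⟨X, hX⟩ : ∃ X : ℝ, X = u ^ (2 / (q:ℝ)) * v ^ (2 * ((q:ℝ) + 1) / q) := ⟨_, rfl⟩
  have hX0 : 0 < X := by rw [hX]; positivity
  have hgoal : min (1 / 16) c₂ * (P.card : ℝ) ^ (-ε) * u ^ (2 / (q:ℝ)) *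
      v ^ (2 * ((q:ℝ) + 1) / q) = min (1 / 16) c₂ * ((P.card : ℝ) ^ (-ε) * X) := by rw [hX]; ring
  rw [hgoal]
  by_cases hbig : X ≤ 16
  · calc min (1 / 16) c₂ * ((P.card : ℝ) ^ (-ε) * X) ≤ 1 / 16 * (1 * 16) := by
          refine mul_le_mul (min_le_left _ _) (mul_le_mul hnε hbig hX0.le zero_le_one)
            (by positivity) (by norm_num)
      _ = 1 := by norm_num
      _ ≤ _ := hDS1
  push Not at hbig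
  -- size of `u`
  have hu4 : 4 < u := u_ge (e := 2 * ((q:ℝ) + 1) / q) hq0 hu0 hv0 hv1 (by positivity)
    (by rw [← hX]; exact hbig)
  obtain ⟨ρ₀, hρ₀⟩ : ∃ ρ₀ : ℝ, ρ₀ = (4 / u) ^ κ₁ := ⟨_, rfl⟩
  have hρ₀0 : 0 < ρ₀ := by rw [hρ₀]; positivity
  have hρ₀1 : ρ₀ ≤ 1 := by
    rw [hρ₀]
    exact Real.rpow_le_one (by positivity) ((div_le_one hu0).2 hu4.le) hκ₁0.le
  have hρ₀s : (P.card : ℝ) * ρ₀ ^ s = 4 * N := by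
    rw [hρ₀, ← Real.rpow_mul (by positivity), hκ₁, one_div, inv_mul_cancel₀ hs0.ne', Real.rpow_one,
      hu]
    field_simp
  obtain ⟨x, ρ, hρ0, h3, h5, h6⟩ := sel_distO hs0 hmain P x₀ hR hρ₀0 hρ₀1 (by omega) hPR hN1 hρ₀s
  -- the radius is larger than `r`
  have h9 : r < ρ * R := by
    by_contra hcon
    push Not at hcon
    have h10 : (cnt P x (ρ * R) : ℝ) ≤ N := (Nat.cast_le.2 (cnt_mono P x hcon)).trans (hN x)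
    linarith
  -- covering
  have h10 := cover P x hr h9.le hN
  have h11 : ρ * R / r = ρ / v := by
    rw [hv]
    field_simp
  have h13 : (P.card : ℝ) * ρ ^ s ≤ C * (ρ / v) ^ (2 * q + 1) * N := by
    calc (P.card : ℝ) * ρ ^ s ≤ 2 * cnt P x (ρ * R) := h3
      _ ≤ 2 * (((2 * ((2 * q + 1 : ℕ) : ℝ) + 5) * (ρ * R / r)) ^ (2 * q + 1) * N) := by linarith
      _ = _ := by rw [h11, mul_pow, hC]; ring
  have h16 := radius_ge hN0 hu hu0 hv0 hρ0 hC0 hsD hκ₂ h13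
  refine le_trans ?_ h6
  have h43 := last_stepO hq0 hn1 hu0 hun hv0 hv1 hε hγ hγ0 hγ2 hC0 hκ1q hκ2q hκ'
    (by rw [← hX]; linarith) hρ₀ h16
  rw [← hX] at h43
  calc min (1 / 16) c₂ * ((P.card : ℝ) ^ (-ε) * X) ≤ c₂ * ((P.card : ℝ) ^ (-ε) * X) :=
        mul_le_mul_of_nonneg_right (min_le_right _ _) (by positivity)
    _ = c / 2 ^ A * ((C⁻¹ ^ κ₂ * (4:ℝ)⁻¹ ^ κ₁) ^ γ * ((P.card : ℝ) ^ (-ε) * X)) := by
        rw [hc₂, mul_assoc]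
    _ ≤ c / 2 ^ A * (ρ * ρ₀⁻¹) ^ γ := mul_le_mul_of_nonneg_left h43 (by positivity)

end Vale.Agent.P054.H978o
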