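import Vale.Agent.P054.H978o.Final

/-! Odd dimension: below the scale of a Frostman bound of exponent `> (d + 1) / 2`, and the
one-scale inequality for arbitrary sets (helper978). -/

namespace Vale.Agent.P054.H978o

open Metric Set Module
open Vale.Agent.P118.FD
open Vale.Agent.P054.H978b

/-- the Frostman bound below its scale -/
theorem frost_low {d : ℕ} (P : Finset (Ed d)) {R s₀ s₁ δ K : ℝ} (hR : 0 < R) (hδ : 0 < δ)
    (hδ1 : δ ≤ 1) (hK : 0 < K) (hs₁ : 0 < s₁) (hss : s₁ ≤ s₀)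
    (hfr : ∀ x, ∀ r : ℝ, δ * R ≤ r → r ≤ R → (cnt P x r : ℝ) ≤ K * P.card * (r / R) ^ s₀)
    (x : Ed d) {r : ℝ} (hr1 : δ ^ (s₀ / s₁) * R ≤ r) (hr2 : r ≤ R) :
    (cnt P x r : ℝ) ≤ K * P.card * (r / R) ^ s₁ := by
  have hr0 : 0 < r := lt_of_lt_of_le (by positivity) hr1
  have hrR : r / R ≤ 1 := (div_le_one hR).2 hr2
  have hrR0 : 0 < r / R := by positivity
  have hKn : 0 ≤ K * P.card := by positivity
  rcases le_or_gt (δ * R) r with h2 | h2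
  · calc (cnt P x r : ℝ) ≤ K * P.card * (r / R) ^ s₀ := hfr x r h2 hr2
      _ ≤ K * P.card * (r / R) ^ s₁ := by
          refine mul_le_mul_of_nonneg_left ?_ hKn
          exact Real.rpow_le_rpow_of_exponent_ge hrR0 hrR hss
  · have h3 : δ * R ≤ R := mul_le_of_le_one_left hR.le hδ1
    have h4 := hfr x _ le_rfl h3
    rw [mul_div_cancel_right₀ _ hR.ne'] at h4
    have h5 : δ ^ s₀ ≤ (r / R) ^ s₁ := by
      have h6 : δ ^ (s₀ / s₁) ≤ r / R := by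
        rw [le_div_iff₀ hR]
        exact hr1
      calc δ ^ s₀ = (δ ^ (s₀ / s₁)) ^ s₁ := by
            rw [← Real.rpow_mul hδ.le, div_mul_cancel₀ _ hs₁.ne']
        _ ≤ _ := Real.rpow_le_rpow (by positivity) h6 hs₁.le
    calc (cnt P x r : ℝ) ≤ cnt P x (δ * R) := by
          exact_mod_cast cnt_mono P x h2.le
      _ ≤ K * P.card * δ ^ s₀ := h4
      _ ≤ _ := mul_le_mul_of_nonneg_left h5 hKn

/-- number of points near a `(q+1)`-plane -/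
theorem slab_up {q : ℕ} (P : Finset (Ed (2 * q + 1))) (x₀ : Ed (2 * q + 1))
    {R s₀ δ K w C₂ : ℝ} (hR : 0 < R) (hδ : 0 < δ) (hK : 1 ≤ K) (hs₀ : 0 < s₀)
    (hC₂ : C₂ = ((2 * (q + 1 : ℕ) + 5) * 2) ^ (q + 1) * 3 ^ s₀)
    (hPR : ∀ p ∈ P, dist p x₀ ≤ R) (hw : δ * R ≤ w) (hwR : w ≤ R)
    (hfr : ∀ x, ∀ r : ℝ, δ * R ≤ r → r ≤ R → (cnt P x r : ℝ) ≤ K * P.card * (r / R) ^ s₀)
    (W : AffineSubspace ℝ (Ed (2 * q + 1))) (hW : finrank ℝ W.direction ≤ q + 1) :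
    (nr P W w : ℝ) ≤ C₂ * K * P.card * (w / R) ^ (s₀ - (q + 1)) := by
  have hw0 : 0 < w := lt_of_lt_of_le (by positivity) hw
  have hPc : (0:ℝ) ≤ P.card := Nat.cast_nonneg _
  have hN : ∀ y, (cnt P y (3 * w) : ℝ) ≤ K * P.card * (3 * w / R) ^ s₀ := by
    intro y
    by_cases h3 : 3 * w ≤ R
    · exact hfr y (3 * w) (by linarith) h3
    · push Not at h3
      have h4 : (1:ℝ) ≤ (3 * w / R) ^ s₀ :=
        Real.one_le_rpow ((one_le_div hR).2 h3.le) hs₀.le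
      calc (cnt P y (3 * w) : ℝ) ≤ P.card := by exact_mod_cast cnt_le_card P y _
        _ ≤ K * P.card := le_mul_of_one_le_left hPc hK
        _ = K * P.card * 1 := (mul_one _).symm
        _ ≤ _ := mul_le_mul_of_nonneg_left h4 (by positivity)
  have h1 := slab_count (m := q + 1) P x₀ hw0 hwR hPR hN W hW
  refine h1.trans (le_of_eq ?_)
  have hwR0 : 0 < w / R := by positivity
  have e1 : 2 * R / w = 2 * (w / R)⁻¹ := by
    rw [inv_div]; ring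
  have e2 : 3 * w / R = 3 * (w / R) := by ring
  have e3 : (w / R) ^ (s₀ - (q + 1)) = (w / R) ^ s₀ * ((w / R)⁻¹) ^ (q + 1) := by
    rw [Real.rpow_sub hwR0, div_eq_mul_inv, inv_pow]
    congr 2
    rw [← Real.rpow_natCast]
    push_cast
    rfl
  rw [e1, e2, e3, Real.mul_rpow (by norm_num) hwR0.le, hC₂]
  rw [← mul_assoc (2 * ((q + 1 : ℕ) : ℝ) + 5) 2, mul_pow]
  ring

/-- the plane bound below the scale of the Frostman bound -/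
theorem slab_low {q : ℕ} (P : Finset (Ed (2 * q + 1))) (x₀ : Ed (2 * q + 1))
    {R s₀ s₁ δ K w C₂ η : ℝ} (hR : 0 < R) (hδ : 0 < δ) (hδ1 : δ ≤ 1) (hK : 1 ≤ K) (hs₀ : 0 < s₀)
    (hC₂ : C₂ = ((2 * (q + 1 : ℕ) + 5) * 2) ^ (q + 1) * 3 ^ s₀) (hC₂0 : 0 < C₂) (hη : 0 < η)
    (hη1 : η ≤ s₀ - (q + 1)) (hη2 : s₀ / s₁ * η ≤ s₀ - (q + 1))
    (hPR : ∀ p ∈ P, dist p x₀ ≤ R) (hw : δ ^ (s₀ / s₁) * R ≤ w) (hwR : w ≤ R)
    (hfr : ∀ x, ∀ r : ℝ, δ * R ≤ r → r ≤ R → (cnt P x r : ℝ) ≤ K * P.card * (r / R) ^ s₀)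
    (W : AffineSubspace ℝ (Ed (2 * q + 1))) (hW : finrank ℝ W.direction ≤ q + 1) :
    (nr P W w : ℝ) ≤ C₂ * K * P.card * (w / R) ^ η := by
  have hw0 : 0 < w := lt_of_lt_of_le (by positivity) hw
  have hwR1 : w / R ≤ 1 := (div_le_one hR).2 hwR
  have hwR0 : 0 < w / R := by positivity
  have hK0 : 0 < K := by linarith
  have hKn : 0 ≤ C₂ * K * P.card := by positivity
  rcases le_or_gt (δ * R) w with h2 | h2
  · refine (slab_up P x₀ hR hδ hK hs₀ hC₂ hPR h2 hwR hfr W hW).trans ?_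
    exact mul_le_mul_of_nonneg_left (Real.rpow_le_rpow_of_exponent_ge hwR0 hwR1 hη1) hKn
  · have h3 := slab_up P x₀ hR hδ hK hs₀ hC₂ hPR le_rfl (mul_le_of_le_one_left hR.le hδ1) hfr W hW
    rw [mul_div_cancel_right₀ _ hR.ne'] at h3
    have h4 : δ ^ (s₀ - (q + 1)) ≤ (w / R) ^ η := by
      have h6 : δ ^ (s₀ / s₁) ≤ w / R := by
        rw [le_div_iff₀ hR]
        exact hw
      calc δ ^ (s₀ - (q + 1)) ≤ δ ^ (s₀ / s₁ * η) :=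
            Real.rpow_le_rpow_of_exponent_ge hδ hδ1 hη2
        _ = (δ ^ (s₀ / s₁)) ^ η := Real.rpow_mul hδ.le _ _
        _ ≤ _ := Real.rpow_le_rpow (by positivity) h6 hη.le
    calc (nr P W w : ℝ) ≤ nr P W (δ * R) := by
          exact_mod_cast nr_mono P W h2.le
      _ ≤ C₂ * K * P.card * δ ^ (s₀ - (q + 1)) := h3
      _ ≤ _ := mul_le_mul_of_nonneg_left h4 hKn

/-- **sets of dimension `s₀ > (d + 1) / 2` down to the scale `δ`: the distances at the scale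
`δ ^ (s₀ / s₁)`**, for every `s₁` with `d / 2 < s₁ ≤ s₀` -/
theorem mainG {q : ℕ} (hq : 1 ≤ q) {s₀ s₁ : ℝ} (hs₀ : (q:ℝ) + 1 < s₀) (hs₁ : (q:ℝ) + 1 / 2 < s₁)
    (hss : s₁ ≤ s₀) :
    ∃ (A : ℕ) (c : ℝ), 0 < c ∧ ∀ (P : Finset (Ed (2 * q + 1))) (x₀ : Ed (2 * q + 1)) (R δ K : ℝ),
      2 ≤ P.card → 0 < R → 0 < δ → δ ≤ 1 → 1 ≤ K → (∀ p ∈ P, dist p x₀ ≤ R) →
      (∀ x, ∀ r : ℝ, δ * R ≤ r → r ≤ R → (cnt P x r : ℝ) ≤ K * P.card * (r / R) ^ s₀) →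
      ∃ T : Finset ℝ, (∀ t ∈ T, ∃ p ∈ P, ∃ p' ∈ P, p ≠ p' ∧ dist p p' = t) ∧
        (∀ t ∈ T, ∀ t' ∈ T, t ≠ t' → δ ^ (s₀ / s₁) * R < |t - t'|) ∧
        c / (K ^ A * δ ^ (s₀ / s₁)) ≤ T.card := by
  have hq0 : (1:ℝ) ≤ q := by exact_mod_cast hq
  have hs00 : 0 < s₀ := by linarith
  have hs10 : 0 < s₁ := by linarith
  obtain ⟨κ, hκ⟩ : ∃ κ : ℝ, κ = s₀ - (q + 1) := ⟨_, rfl⟩
  have hκ0 : 0 < κ := by rw [hκ]; linarith
  obtain ⟨η, hη⟩ : ∃ η : ℝ, η = min 1 (κ / (s₀ / s₁)) := ⟨_, rfl⟩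
  have hγ1 : 1 ≤ s₀ / s₁ := (one_le_div hs10).2 hss
  have hγ0 : 0 < s₀ / s₁ := by linarith
  have hη0 : 0 < η := by
    rw [hη]
    exact lt_min one_pos (by positivity)
  have hη1 : η ≤ 1 := by
    rw [hη]
    exact min_le_left _ _
  have hη2 : s₀ / s₁ * η ≤ κ := by
    have : η ≤ κ / (s₀ / s₁) := by
      rw [hη]
      exact min_le_right _ _
    calc s₀ / s₁ * η ≤ s₀ / s₁ * (κ / (s₀ / s₁)) := mul_le_mul_of_nonneg_left this hγ0.le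
      _ = κ := mul_div_cancel₀ _ hγ0.ne'
  have hη3 : η ≤ κ := (le_mul_of_one_le_left hη0.le hγ1).trans hη2
  rw [hκ] at hη2 hη3
  obtain ⟨A, c, hc, hmain⟩ := mainIO hq hs₁ hη0 hη1
  obtain ⟨C₂, hC₂⟩ : ∃ C₂ : ℝ, C₂ = ((2 * (q + 1 : ℕ) + 5) * 2) ^ (q + 1) * 3 ^ s₀ := ⟨_, rfl⟩
  have hC₂1 : 1 ≤ C₂ := by
    rw [hC₂]
    refine one_le_mul_of_one_le_of_one_le (one_le_pow₀ ?_) (Real.one_le_rpow (by norm_num) hs00.le)
    push_cast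
    nlinarith
  have hC₂0 : 0 < C₂ := by linarith
  refine ⟨A, c / C₂ ^ A, by positivity, ?_⟩
  intro P x₀ R δ K hP hR hδ hδ1 hK hPR hfr
  have hK0 : 0 < K := by linarith
  have hCK : 1 ≤ C₂ * K := one_le_mul_of_one_le_of_one_le hC₂1 hK
  have hδγ1 : δ ^ (s₀ / s₁) ≤ 1 := Real.rpow_le_one hδ.le hδ1 hγ0.le
  obtain ⟨T, hT, hT', hTc⟩ := hmain P x₀ R (δ ^ (s₀ / s₁)) (C₂ * K) hP hR (by positivity) hδγ1
    hCK hPR (fun x r hr1 hr2 => by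
      have hr0 : 0 < r := lt_of_lt_of_le (by positivity) hr1
      have h3 := frost_low P hR hδ hδ1 hK0 hs10 hss hfr x hr1 hr2
      have h4 : (0:ℝ) ≤ K * P.card * (r / R) ^ s₁ := by positivity
      calc (cnt P x r : ℝ) ≤ K * P.card * (r / R) ^ s₁ := h3
        _ ≤ C₂ * (K * P.card * (r / R) ^ s₁) := le_mul_of_one_le_left h4 hC₂1
        _ = _ := by ring)
    (fun W hW w hw1 hw2 =>
      slab_low P x₀ hR hδ hδ1 hK hs00 hC₂ hC₂0 hη0 hη3 hη2 hPR hw1 hw2 hfr W hW)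
  refine ⟨T, hT, hT', le_trans (le_of_eq ?_) hTc⟩
  rw [mul_pow]
  field_simp

end Vale.Agent.P054.H978o
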